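import Vale.Agent.P076N.A.Main

/-! # P076N / A : the bridge `AMPX n → AT2 n → NS n` and the block `asm` -/

open MeasureTheory Finset

set_option linter.all false

namespace Vale.Agent.P076N.A

open Vale.Agent.P076

variable {n : ℕ}

/-- the unit cube of a point -/
noncomputable def fl (p : E n × ℝ) : Zv n := fun l => ⌊p.1 l⌋

open Classical in
theorem fib_card {B : ℝ} {A : Finset (E n × ℝ)} (h : Gph B A) (y : Zv n) :
    (#(A.filter fun p => fl p = y) : ℝ) ≤ B * ((n : ℝ) + 1) ^ n := by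
  have hB := gph_nonneg h
  refine (gph_card h (Finset.filter_subset _ _)).trans (mul_le_mul_of_nonneg_left ?_ hB)
  have hsub : ((A.filter fun p => fl p = y).image fun p => (fun l => ⌊((n : ℝ) + 1) * p.1 l⌋ : Zv n)) ⊆
      Fintype.piFinset fun l => Finset.Ico (((n : ℤ) + 1) * y l) (((n : ℤ) + 1) * y l + ((n : ℤ) + 1)) := by
    intro z hz
    obtain ⟨p, hp, rfl⟩ := Finset.mem_image.1 hz
    have hy := (Finset.mem_filter.1 hp).2
    rw [Fintype.mem_piFinset]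
    intro l
    have h1 : (y l : ℝ) ≤ p.1 l := by rw [← hy]; exact Int.floor_le _
    have h2 : p.1 l < y l + 1 := by rw [← hy]; exact Int.lt_floor_add_one _
    have hn : (0 : ℝ) < (n : ℝ) + 1 := by positivity
    rw [Finset.mem_Ico]
    constructor
    · rw [Int.le_floor]; push_cast; nlinarith
    · rw [Int.floor_lt]; push_cast; nlinarith
  have h3 := Finset.card_le_card hsub
  rw [Fintype.card_piFinset] at h3
  have h4 : ∀ l : Fin n, (Finset.Ico (((n : ℤ) + 1) * y l) (((n : ℤ) + 1) * y l + ((n : ℤ) + 1))).card = n + 1 := by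
    intro l
    rw [Int.card_Ico]
    have : ((n : ℤ) + 1) * y l + ((n : ℤ) + 1) - ((n : ℤ) + 1) * y l = ((n + 1 : ℕ) : ℤ) := by push_cast; ring
    rw [this, Int.toNat_natCast]
  simp only [h4, Finset.prod_const, Finset.card_univ, Fintype.card_fin] at h3
  exact_mod_cast h3

/-- the time of the root of a point -/
noncomputable def tm (M : ℤ) (p : E n × ℝ) : ℤ := min ⌊p.2⌋ (M - 1)

theorem tm_close {M : ℤ} {p : E n × ℝ} (h : p.2 ≤ M) : |p.2 - tm M p| ≤ 1 := by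
  unfold tm
  have h1 := Int.floor_le p.2
  have h2 := Int.lt_floor_add_one p.2
  rcases le_total ⌊p.2⌋ (M - 1) with h3 | h3
  · rw [min_eq_left h3, abs_le]; constructor <;> linarith
  · rw [min_eq_right h3, abs_le]
    have h4 : ((M - 1 : ℤ) : ℝ) ≤ (⌊p.2⌋ : ℝ) := Int.cast_le.2 h3
    push_cast at h4 ⊢
    constructor <;> linarith

theorem fl_close' (p : E n × ℝ) (l : Fin n) : |p.1 l - fl p l| ≤ 1 := by
  unfold fl
  have h1 := Int.floor_le (p.1 l)
  have h2 := Int.lt_floor_add_one (p.1 l)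
  rw [abs_le]; constructor <;> linarith

theorem le_of_pow_le {N N₁ K : ℕ} (hK : 1 ≤ K) (h : ((2 : ℝ) ^ N₁) ^ K ≤ ((2 : ℝ) ^ N) ^ K) : N₁ ≤ N := by
  by_contra hc
  push Not at hc
  have h1 : (2 : ℝ) ^ N < (2 : ℝ) ^ N₁ := pow_lt_pow_right₀ (by norm_num) hc
  have h2 := pow_lt_pow_left₀ h1 (by positivity) (by omega : K ≠ 0)
  linarith

/-- **the bridge** -/
theorem ns_of (hA : AMPX n) (hT : AT2 n) : NS n := by
  classical
  intro c hc
  obtain ⟨κ, hκ, K, hK, hT1⟩ := hT c hc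
  obtain ⟨C, hC, hA1⟩ := hA K hK
  refine ⟨κ, hκ, K, hK, fun B => ?_⟩
  rcases lt_or_ge B 0 with hB | hB0
  · exact ⟨0, 0, le_rfl, le_rfl, fun N L T H Q α A _ _ _ _ _ _ hG => absurd (gph_nonneg hG) (not_le.2 hB)⟩
  obtain ⟨W, hW⟩ : ∃ W : ℝ, W = B * ((n : ℝ) + 1) ^ n := ⟨_, rfl⟩
  have hW0 : 0 ≤ W := by rw [hW]; positivity
  obtain ⟨N₀, hT2⟩ := hT1 C (max 1 W) hC (le_max_left _ _)
  refine ⟨C ^ 2 * W, ((2 : ℝ) ^ (max N₀ 2)) ^ K, by positivity, by positivity, ?_⟩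
  intro N L T H Q α A hL hL₀ hF hQ hp hα hG hbig hpos
  have hN : max N₀ 2 ≤ N := le_of_pow_le hK (by rw [← hL]; exact hL₀)
  obtain ⟨F, hroot, hplate⟩ := hA1 N L T H Q ((le_max_right _ _).trans hN) hL hF hQ
  have hC0 : 0 < C := by linarith
  obtain ⟨M, hM⟩ : ∃ M : ℤ, M = ((2 : ℤ) ^ N) ^ (2 * K) := ⟨_, rfl⟩
  have hML : (M : ℝ) = L ^ 2 := by rw [hM, hL]; push_cast; rw [← pow_mul ((2 : ℝ) ^ N) K 2, mul_comm K 2]
  have hM1 : 1 ≤ M := by rw [hM]; exact one_le_pow₀ (one_le_pow₀ (by norm_num))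
  have hex : ∀ p : E n × ℝ, ∃ c : Zv n, p ∈ A → (∀ l, |c l| ≤ 10) ∧
      ‖Uu (fun η => ∑ τ ∈ T, H τ η) p‖ ≤ C * F.a 0 ⟨c, fun l => fl p l - tm M p * c l, tm M p⟩ (below (2 ^ N) K c) := by
    intro p
    by_cases hpA : p ∈ A
    · obtain ⟨c, h1, h2⟩ := hroot p (fl p) (tm M p) (fl_close' p) (tm_close (by rw [hML]; exact (hbig p hpA).2.1))
      exact ⟨c, fun _ => ⟨h1, h2⟩⟩
    · exact ⟨0, fun h => absurd h hpA⟩
  choose cc hcc using hex
  obtain ⟨nd, hnd⟩ : ∃ nd : E n × ℝ → Nd n, ∀ p, nd p = ⟨cc p, fun l => fl p l - tm M p * cc p l, tm M p⟩ := ⟨_, fun _ => rfl⟩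
  have hx : ∀ p, xpos (nd p) = fl p := by
    intro p
    funext l
    rw [hnd]
    simp only [xpos]
    ring
  have hfib : ∀ y, (#(A.filter fun p => fl p = y) : ℝ) ≤ W := fun y => by
    rw [hW]; convert fib_card hG y
  have h1 := hT2 N ((le_max_left _ _).trans hN) Q F (A.image nd) (α / C) (by positivity) (by
      intro x hxX
      obtain ⟨p, hpA, rfl⟩ := Finset.mem_image.1 hxX
      obtain ⟨h1, h2⟩ := hcc p hpA
      obtain ⟨t0, t1, t2⟩ := hbig p hpA
      rw [hnd]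
      refine ⟨h1, le_min (Int.floor_nonneg.2 t0) (by omega), ?_, ?_⟩
      · have : tm M p ≤ M - 1 := min_le_right _ _
        have e : (((2 ^ N : ℕ) : ℤ)) ^ (2 * K) = M := by rw [hM]; push_cast; rfl
        show tm M p < (((2 ^ N : ℕ) : ℤ)) ^ (2 * K)
        rw [e]; omega
      · rw [div_le_iff₀' hC0]
        exact t2.trans h2) (by
      intro y
      refine le_trans ?_ ((hfib y).trans (le_max_right _ _))
      refine Nat.cast_le.2 (le_trans (Finset.card_le_card (t := (A.filter fun p => fl p = y).image nd) ?_) Finset.card_image_le)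
      intro x hxX
      obtain ⟨hx1, hx2⟩ := Finset.mem_filter.1 hxX
      obtain ⟨p, hpA, rfl⟩ := Finset.mem_image.1 hx1
      exact Finset.mem_image.2 ⟨p, Finset.mem_filter.2 ⟨hpA, (hx p).symm.trans hx2⟩, rfl⟩) (by
      intro x hxX l
      obtain ⟨p, hpA, rfl⟩ := Finset.mem_image.1 hxX
      rw [hx, ← hM]
      have h1 := fl_close' p l
      have h2 : |p.1 l| ≤ M := by rw [hML]; exact (Vale.Agent.P076T.abs_apply_le p.1 l).trans (hpos p hpA)
      have h3 : (1 : ℝ) ≤ M := by exact_mod_cast hM1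
      have h4 : ((|fl p l| : ℤ) : ℝ) ≤ ((4 * M : ℤ) : ℝ) := by
        push_cast
        rw [abs_le] at h1 h2 ⊢
        constructor <;> linarith [h1.1, h1.2, h2.1, h2.2]
      exact_mod_cast h4) (hplate c hc.le hp)
  have hcard : (#A : ℝ) ≤ W * #(A.image nd) := by
    have e : (#A : ℝ) = ∑ x ∈ A.image nd, (#(A.filter fun p => nd p = x) : ℝ) := by
      exact_mod_cast Finset.card_eq_sum_card_image nd A
    rw [e, mul_comm, ← nsmul_eq_mul]
    refine Finset.sum_le_card_nsmul _ _ _ fun x _ => le_trans ?_ (hfib (xpos x))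
    refine Nat.cast_le.2 (Finset.card_le_card fun p hp => ?_)
    rw [Finset.mem_filter] at hp ⊢
    exact ⟨hp.1, by rw [← hp.2, hx]⟩
  have hexp : ((2 : ℝ) ^ N) ^ (K * (2 * n / (n + 1) - κ) : ℝ) = L ^ (2 * (n / (n + 1)) - κ : ℝ) := by
    rw [hL, ← Real.rpow_natCast ((2 : ℝ) ^ N) K, ← Real.rpow_mul (by positivity), mul_div_assoc]
  rw [hexp] at h1
  calc α ^ 2 * (#A : ℝ) ≤ α ^ 2 * (W * #(A.image nd)) := mul_le_mul_of_nonneg_left hcard (by positivity)
    _ = C ^ 2 * W * ((α / C) ^ 2 * #(A.image nd)) := by field_simp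
    _ ≤ C ^ 2 * W * (L ^ (2 * (n / (n + 1)) - κ : ℝ) * Q) := mul_le_mul_of_nonneg_left h1 (by positivity)
    _ = _ := by ring

/-- **the block `asm`**, given the construction of the amplitudes -/
theorem asm_of (hA : ∀ n, AMPX n) : ∀ n, 3 ≤ n → AT2 n → TS n → SS n :=
  fun n hn h2 hT => ss_of (by omega) hT (ns_of (hA n) h2)

end Vale.Agent.P076N.A
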