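import Vale.Agent.P076N.A.Pl

/-! # P076N / A : clusters (single linkage) and lattice counts -/

open MeasureTheory Complex Set

set_option linter.all false

namespace Vale.Agent.P076N.A

open Vale.Agent.P076

variable {n : ℕ}

theorem walk_dist {V : Type*} {G : SimpleGraph V} {X : Type*} [NormedAddCommGroup X] (m : V → X) {r : ℝ}
    (h : ∀ a b, G.Adj a b → ‖m a - m b‖ ≤ r) : ∀ {u v : V} (p : G.Walk u v), ‖m u - m v‖ ≤ p.length * r := by
  intro u v p
  induction p with
  | nil => simp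
  | cons hadj p ih =>
    rename_i a b c
    rw [SimpleGraph.Walk.length_cons]
    push_cast
    calc ‖m a - m c‖ ≤ ‖m a - m b‖ + ‖m b - m c‖ := norm_sub_le_norm_sub_add_norm_sub _ _ _
      _ ≤ r + p.length * r := add_le_add (h _ _ hadj) ih
      _ = (p.length + 1) * r := by ring

/-- single linkage -/
theorem cluster {X : Type*} [NormedAddCommGroup X] (V : Finset ℕ) (m : ℕ → X) {r : ℝ} (hr : 0 ≤ r) : ∃ cl : ℕ → ℕ,
    (∀ i ∈ V, cl i ∈ V ∧ ‖m i - m (cl i)‖ ≤ V.card * r) ∧
    ∀ i ∈ V, ∀ j ∈ V, cl i ≠ cl j → r < ‖m i - m j‖ := by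
  classical
  let G : SimpleGraph V := SimpleGraph.fromRel fun a b : V => ‖m a - m b‖ ≤ r
  have hG : ∀ a b : V, G.Adj a b → ‖m a - m b‖ ≤ r := by
    intro a b hab
    rw [SimpleGraph.fromRel_adj] at hab
    rcases hab.2 with h | h
    · exact h
    · rw [norm_sub_rev]; exact h
  let rep : V → V := fun a => (G.connectedComponentMk a).out
  have hrep : ∀ a, G.Reachable a (rep a) := by
    intro a
    have h : G.connectedComponentMk (rep a) = G.connectedComponentMk a := Quot.out_eq _
    exact (SimpleGraph.ConnectedComponent.exact h).symm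
  refine ⟨fun i => if h : i ∈ V then (rep ⟨i, h⟩).1 else i, ?_, ?_⟩
  · intro i hi
    simp only [hi, dif_pos]
    refine ⟨(rep ⟨i, hi⟩).2, ?_⟩
    obtain ⟨p, hp⟩ := (hrep ⟨i, hi⟩).exists_isPath
    have h1 := walk_dist (fun a : V => m a) hG p
    have h2 : p.length < Fintype.card V := hp.length_lt
    rw [Fintype.card_coe] at h2
    refine h1.trans (mul_le_mul_of_nonneg_right ?_ hr)
    exact_mod_cast h2.le
  · intro i hi j hj hne
    simp only [hi, hj, dif_pos] at hne
    by_contra hcon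
    push Not at hcon
    apply hne
    by_cases hij : i = j
    · subst hij; rfl
    have hadj : G.Adj ⟨i, hi⟩ ⟨j, hj⟩ := by
      rw [SimpleGraph.fromRel_adj]
      exact ⟨fun h => hij (congrArg Subtype.val h), Or.inl hcon⟩
    have h : G.connectedComponentMk ⟨i, hi⟩ = G.connectedComponentMk ⟨j, hj⟩ :=
      SimpleGraph.ConnectedComponent.sound hadj.reachable
    change ((G.connectedComponentMk ⟨i, hi⟩).out).1 = ((G.connectedComponentMk ⟨j, hj⟩).out).1
    rw [h]

/-! ## lattice counts -/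

/-- lattice points of a slab in a ball -/
theorem strip_count (A : Finset (Fin n → ℤ)) {R w : ℝ} (hR : 0 ≤ R) (hw : 0 ≤ w) {e : E n} (he : ‖e‖ = 1) (b : ℝ)
    (h1 : ∀ k ∈ A, ‖toV k‖ ≤ R) (h2 : ∀ k ∈ A, |inner ℝ e (toV k) - b| ≤ w) :
    (A.card : ℝ) ≤ (2 * R + 1) ^ (n - 1) * (2 * n * w + 1) := by
  classical
  obtain ⟨j, hj⟩ : ∃ j, 1 ≤ n * |e j| := by
    by_contra hc
    push Not at hc
    have h3 : ‖e‖ ^ 2 = ∑ k, e k ^ 2 := by simp [EuclideanSpace.norm_sq_eq]
    rcases Nat.eq_zero_or_pos n with h0 | h0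
    · subst h0
      simp [he] at h3
    have hn : (1 : ℝ) ≤ n := by exact_mod_cast h0
    have h4 : ∑ k, e k ^ 2 < ∑ _k : Fin n, (1 : ℝ) / n := by
      haveI : Nonempty (Fin n) := ⟨⟨0, h0⟩⟩
      refine Finset.sum_lt_sum_of_nonempty Finset.univ_nonempty fun k _ => ?_
      have h5 := hc k
      have h6 : |e k| ≤ 1 := by nlinarith [abs_nonneg (e k)]
      rw [lt_div_iff₀ (by linarith), ← sq_abs]
      nlinarith [abs_nonneg (e k)]
    rw [← h3, he, Finset.sum_const, Finset.card_univ, Fintype.card_fin, nsmul_eq_mul] at h4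
    rw [mul_one_div_cancel (by linarith)] at h4
    simp at h4
  have hej : e j ≠ 0 := by
    intro h0
    rw [h0, abs_zero, mul_zero] at hj
    linarith
  have hej' : 0 < |e j| := abs_pos.2 hej
  set P : (Fin n → ℤ) → (Fin n → ℤ) := fun k => Function.update k j 0 with hP
  have hcard : (A.card : ℝ) = ∑ a ∈ A.image P, ((A.filter fun k => P k = a).card : ℝ) := by
    exact_mod_cast Finset.card_eq_sum_card_image P A
  have hin : ∀ k : Fin n → ℤ, inner ℝ e (toV k) = inner ℝ e (toV (P k)) + e j * k j := by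
    intro k
    have h3 : toV k = toV (P k) + EuclideanSpace.single j (k j : ℝ) := by
      ext l
      rw [PiLp.add_apply, toV_apply, toV_apply]
      by_cases hl : l = j
      · subst hl
        simp [hP]
      · simp [hP, hl]
    rw [h3, inner_add_right, EuclideanSpace.inner_single_right]
    simp [mul_comm]
  have hfib : ∀ a ∈ A.image P, ((A.filter fun k => P k = a).card : ℝ) ≤ 2 * n * w + 1 := by
    intro a _
    set c := (b - inner ℝ e (toV a)) / e j with hc
    have hsub : (A.filter fun k => P k = a).image (fun k => k j) ⊆ Finset.Icc ⌈c - n * w⌉ ⌊c + n * w⌋ := by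
      intro l hl
      obtain ⟨k, hk1, rfl⟩ := Finset.mem_image.1 hl
      rw [Finset.mem_filter] at hk1
      have h3 := h2 k hk1.1
      rw [hin, hk1.2] at h3
      have h4 : |(k j : ℝ) - c| ≤ n * w := by
        have h5 : (k j : ℝ) - c = (inner ℝ e (toV a) + e j * k j - b) / e j := by
          rw [hc]; field_simp; ring
        rw [h5, abs_div, div_le_iff₀ hej']
        nlinarith
      rw [abs_le] at h4
      rw [Finset.mem_Icc, Int.ceil_le, Int.le_floor]
      constructor <;> linarith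
    have hinj : ((A.filter fun k => P k = a).image (fun k => k j)).card = (A.filter fun k => P k = a).card := by
      apply Finset.card_image_of_injOn
      intro k hk k' hk' heq
      rw [Finset.mem_coe, Finset.mem_filter] at hk hk'
      ext l
      by_cases hl : l = j
      · rw [hl]; exact heq
      · have := congrFun (hk.2.trans hk'.2.symm) l
        simpa [hP, hl] using this
    rw [← hinj]
    have h7 := card_Icc_le (a := c - n * w) (b := c + n * w) (by nlinarith [mul_nonneg (Nat.cast_nonneg n : (0:ℝ) ≤ n) hw])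
    exact (Nat.cast_le.2 (Finset.card_le_card hsub)).trans (by linarith)
  have himg : ((A.image P).card : ℝ) ≤ (2 * R + 1) ^ (n - 1) := by
    have hsub : A.image P ⊆ Fintype.piFinset (Function.update (fun _ => Finset.Icc ⌈-R⌉ ⌊R⌋) j {0}) := by
      intro l hl
      obtain ⟨k, hk1, rfl⟩ := Finset.mem_image.1 hl
      rw [Fintype.mem_piFinset]
      intro i
      by_cases hi : i = j
      · subst hi
        simp [hP]
      · have h3 := (abs_apply_le (toV k) i).trans (h1 k hk1)
        rw [toV_apply, abs_le] at h3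
        simp only [hP, Function.update_of_ne hi]
        rw [Finset.mem_Icc, Int.ceil_le, Int.le_floor]
        exact h3
    have h6 := Finset.card_le_card hsub
    rw [Fintype.card_piFinset, ← Finset.mul_prod_erase _ _ (Finset.mem_univ j), Function.update_self,
      Finset.card_singleton, one_mul, Finset.prod_congr rfl (g := fun _ => (Finset.Icc ⌈-R⌉ ⌊R⌋).card)
        fun i hi => congrArg Finset.card (Function.update_of_ne (Finset.ne_of_mem_erase hi) _ _), Finset.prod_const,
      Finset.card_erase_of_mem (Finset.mem_univ j), Finset.card_univ, Fintype.card_fin] at h6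
    have h7 := card_Icc_le (a := -R) (b := R) (by linarith)
    refine (Nat.cast_le.2 h6).trans ?_
    push_cast
    exact pow_le_pow_left₀ (Nat.cast_nonneg _) (h7.trans (by linarith)) _
  rw [hcard]
  calc ∑ a ∈ A.image P, ((A.filter fun k => P k = a).card : ℝ) ≤ ∑ a ∈ A.image P, (2 * n * w + 1) :=
        Finset.sum_le_sum hfib
    _ = (A.image P).card * (2 * n * w + 1) := by rw [Finset.sum_const, nsmul_eq_mul]
    _ ≤ _ := mul_le_mul_of_nonneg_right himg (by positivity)

/-- points with the graph condition and the lattice `ℤ^n / (n + 1)` -/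
theorem gph_card {B : ℝ} {A A' : Finset (E n × ℝ)} (h : Gph B A) (hA : A' ⊆ A) :
    (A'.card : ℝ) ≤ B * (A'.image fun p => (fun l => ⌊((n : ℝ) + 1) * p.1 l⌋ : Zv n)).card := by
  classical
  set P : E n × ℝ → Zv n := fun p l => ⌊((n : ℝ) + 1) * p.1 l⌋ with hP
  have hcard : (A'.card : ℝ) = ∑ a ∈ A'.image P, ((A'.filter fun p => P p = a).card : ℝ) := by
    exact_mod_cast Finset.card_eq_sum_card_image P A'
  rw [hcard, mul_comm, ← nsmul_eq_mul]
  refine Finset.sum_le_card_nsmul _ _ _ fun a _ => le_trans ?_ (h (((n : ℝ) + 1)⁻¹ • toV a))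
  refine Nat.cast_le.2 (Finset.card_le_card fun p hp => ?_)
  rw [Finset.mem_filter] at hp ⊢
  refine ⟨hA hp.1, (norm_le_coord (a := ((n : ℝ) + 1)⁻¹) fun l => ?_).trans ?_⟩
  · have h1 : (a l : ℝ) ≤ ((n : ℝ) + 1) * p.1 l := by rw [← hp.2]; exact Int.floor_le _
    have h2 : ((n : ℝ) + 1) * p.1 l < a l + 1 := by rw [← hp.2]; exact Int.lt_floor_add_one _
    have h3 : (p.1 - ((n : ℝ) + 1)⁻¹ • toV a) l = ((n : ℝ) + 1)⁻¹ * (((n : ℝ) + 1) * p.1 l - a l) := by
      rw [PiLp.sub_apply, PiLp.smul_apply, toV_apply, smul_eq_mul]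
      field_simp
    rw [h3, abs_mul, abs_of_pos (by positivity)]
    refine mul_le_of_le_one_right (by positivity) (abs_le.2 ⟨by linarith, by linarith⟩)
  · rw [← div_eq_mul_inv, div_le_one (by positivity)]
    linarith

theorem fl_close (x : E n) : ‖toV (fun l => ⌊((n : ℝ) + 1) * x l⌋) - ((n : ℝ) + 1) • x‖ ≤ n := by
  refine (norm_le_coord (a := 1) fun l => ?_).trans (by simp)
  rw [PiLp.sub_apply, PiLp.smul_apply, toV_apply, smul_eq_mul]
  have h1 := Int.floor_le (((n : ℝ) + 1) * x l)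
  have h2 := Int.lt_floor_add_one (((n : ℝ) + 1) * x l)
  exact abs_le.2 ⟨by linarith, by linarith⟩

theorem fl_norm {x : E n} {R : ℝ} (hR : 1 ≤ R) (hx : ‖x‖ ≤ R) :
    ‖toV (fun l => ⌊((n : ℝ) + 1) * x l⌋)‖ ≤ (2 * n + 1) * R := by
  have h1 := norm_le_norm_add_norm_sub' (toV fun l => ⌊((n : ℝ) + 1) * x l⌋) (((n : ℝ) + 1) • x)
  have h2 := fl_close x
  rw [norm_smul, Real.norm_of_nonneg (by positivity)] at h1
  have hn : (0 : ℝ) ≤ n := Nat.cast_nonneg n
  nlinarith

/-- the constant in the number of points of a slab -/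
noncomputable def cG (n : ℕ) : ℝ := (4 * n + 3) ^ n * (4 * n + 2) * (n + 1)

/-- points of a slab in a ball -/
theorem slab_count {B R w : ℝ} {A A' : Finset (E n × ℝ)} (h : Gph B A) (hA : A' ⊆ A) (hB : 0 ≤ B) (hR : 1 ≤ R)
    (hw : 0 ≤ w) {e : E n} (he : ‖e‖ = 1) (b : ℝ) (h1 : ∀ p ∈ A', ‖p.1‖ ≤ R) (h2 : ∀ p ∈ A', |inner ℝ e p.1 - b| ≤ w) :
    (A'.card : ℝ) ≤ B * cG n * (R ^ (n - 1) * (w + 1)) := by
  classical
  have hn : (0 : ℝ) ≤ n := Nat.cast_nonneg n
  refine (gph_card h hA).trans ?_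
  rw [mul_assoc]
  refine mul_le_mul_of_nonneg_left ((strip_count _ (R := (2 * n + 1) * R) (w := (n + 1) * (w + 1)) (by positivity)
    (by positivity) he ((n + 1) * b) (fun k hk => ?_) fun k hk => ?_).trans ?_) hB
  · obtain ⟨p, hp, rfl⟩ := Finset.mem_image.1 hk
    exact fl_norm hR (h1 p hp)
  · obtain ⟨p, hp, rfl⟩ := Finset.mem_image.1 hk
    have h3 := (abs_nx_le he _).trans (fl_close p.1)
    rw [inner_sub_right, real_inner_smul_right] at h3
    have h4 := mul_le_mul_of_nonneg_left (h2 p hp) (show (0 : ℝ) ≤ n + 1 by positivity)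
    rw [← abs_of_nonneg (show (0 : ℝ) ≤ n + 1 by positivity), ← abs_mul, abs_of_nonneg (show (0 : ℝ) ≤ n + 1 by positivity),
      mul_sub] at h4
    refine (abs_sub_le _ _ _).trans ((add_le_add h3 h4).trans ?_)
    linarith
  · have a1 : (2 * ((2 * n + 1) * R) + 1) ^ (n - 1) ≤ (4 * n + 3) ^ n * R ^ (n - 1) := by
      calc (2 * ((2 * n + 1) * R) + 1) ^ (n - 1) ≤ ((4 * n + 3) * R) ^ (n - 1) :=
            pow_le_pow_left₀ (by positivity) (by nlinarith) _
        _ = (4 * n + 3) ^ (n - 1) * R ^ (n - 1) := mul_pow _ _ _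
        _ ≤ _ := mul_le_mul_of_nonneg_right (pow_le_pow_right₀ (by linarith) (Nat.sub_le _ _)) (by positivity)
    have a2 : 2 * n * ((n + 1) * (w + 1)) + 1 ≤ (4 * n + 2) * (n + 1) * (w + 1) := by
      nlinarith [mul_nonneg hn hw, mul_nonneg hn (mul_nonneg hn hw), mul_nonneg hn hn]
    refine (mul_le_mul a1 a2 (by positivity) (by positivity)).trans (le_of_eq ?_)
    unfold cG
    ring

end Vale.Agent.P076N.A
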