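import Vale.Agent.P076N.A.Pck

/-! # P076N / A : decomposition of `G` along disjoint regions -/

open MeasureTheory Complex FourierTransform Convolution Set
open scoped ContDiff

set_option linter.all false

namespace Vale.Agent.P076N.A

open Vale.Agent.P076

variable {n : ℕ}

/-! ## linearity -/

theorem inv_eq_evo (G : E n → ℂ) (x : E n) : (𝓕⁻ G : E n → ℂ) x = evo G x 0 0 := by
  rw [Real.fourierInv_eq']
  unfold evo
  congr 1
  ext η
  rw [smul_eq_mul]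
  congr 1
  congr 1
  rw [real_inner_comm]
  push_cast
  ring

theorem integrable_ph {G : E n → ℂ} (h : Integrable G) (x : E n) (t : ℝ) : Integrable fun η => ph x t 0 η * G η :=
  integrable_ph_mul h x t le_rfl

theorem evo_add {G H : E n → ℂ} (hG : Integrable G) (hH : Integrable H) (x : E n) (t : ℝ) :
    evo (fun η => G η + H η) x t 0 = evo G x t 0 + evo H x t 0 := by
  rw [evo_eq, evo_eq, evo_eq, ← integral_add (integrable_ph hG x t) (integrable_ph hH x t)]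
  congr 1
  ext η
  ring

theorem evo_sub {G H : E n → ℂ} (hG : Integrable G) (hH : Integrable H) (x : E n) (t : ℝ) :
    evo (fun η => G η - H η) x t 0 = evo G x t 0 - evo H x t 0 := by
  rw [evo_eq, evo_eq, evo_eq, ← integral_sub (integrable_ph hG x t) (integrable_ph hH x t)]
  congr 1
  ext η
  ring

theorem evo_sum {ι : Type*} (s : Finset ι) {F : ι → E n → ℂ} (h : ∀ i ∈ s, Integrable (F i)) (x : E n) (t : ℝ) :
    evo (fun η => ∑ i ∈ s, F i η) x t 0 = ∑ i ∈ s, evo (F i) x t 0 := by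
  simp only [evo_eq]
  rw [← integral_finsetSum _ fun i hi => integrable_ph (h i hi) x t]
  congr 1
  ext η
  rw [Finset.mul_sum]

/-! ## finite unions -/

theorem W_biUnion {L : ℝ} (hL : 0 < L) {ι : Type*} (s : Finset ι) (D : ι → Set (E n)) (hm : ∀ i ∈ s, MeasurableSet (D i))
    (hd : ∀ i ∈ s, ∀ j ∈ s, i ≠ j → Disjoint (D i) (D j)) (x : E n) :
    W L (⋃ i ∈ s, D i) x = ∑ i ∈ s, W L (D i) x := by
  unfold W
  refine integral_biUnion_finset s hm ?_ fun i _ => (integrable_mL_sub hL x).integrableOn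
  intro i hi j hj hij
  exact hd i hi j hj hij

theorem W_biUnion_le {L : ℝ} (hL : 0 < L) {ι : Type*} (s : Finset ι) (D : ι → Set (E n)) (hm : ∀ i ∈ s, MeasurableSet (D i))
    (x : E n) : W L (⋃ i ∈ s, D i) x ≤ ∑ i ∈ s, W L (D i) x := by
  classical
  induction s using Finset.induction_on with
  | empty => simp [W_empty]
  | insert a s ha ih =>
    rw [Finset.set_biUnion_insert, Finset.sum_insert ha]
    have h1 : MeasurableSet (⋃ i ∈ s, D i) := s.measurableSet_biUnion fun i hi => hm i (Finset.mem_insert_of_mem hi)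
    refine (W_union_le hL (hm a (Finset.mem_insert_self _ _)) h1 x).trans ?_
    gcongr
    exact ih fun i hi => hm i (Finset.mem_insert_of_mem hi)

/-! ## the decomposition -/

/-- disjoint bounded regions -/
structure Rgs {ι : Type*} (S : Finset ι) (D : ι → (Fin n → ℤ) → Set (E n)) : Prop where
  meas : ∀ i ∈ S, ∀ τ, MeasurableSet (D i τ)
  bdd : ∀ i ∈ S, ∀ τ, Bornology.IsBounded (D i τ)
  disj : ∀ i ∈ S, ∀ j ∈ S, i ≠ j → ∀ τ, Disjoint (D i τ) (D j τ)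

section
variable {ι : Type*} {S : Finset ι} {D : ι → (Fin n → ℤ) → Set (E n)} {L : ℝ} {G : E n → ℂ}

/-- the data of the region `i` -/
noncomputable def Hi (L : ℝ) (D : ι → (Fin n → ℤ) → Set (E n)) (G : E n → ℂ) (i : ι) : E n → ℂ :=
  fun η => ∑ τ ∈ TT n L, pc L (D i τ) (Gc L G τ) η

/-- the pieces of the rest -/
noncomputable def Hr (L : ℝ) (S : Finset ι) (D : ι → (Fin n → ℤ) → Set (E n)) (G : E n → ℂ) (τ : Fin n → ℤ) : E n → ℂ :=
  fun η => Gc L G τ η - ∑ i ∈ S, pc L (D i τ) (Gc L G τ) η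

/-- the region of the rest -/
def Dr (S : Finset ι) (D : ι → (Fin n → ℤ) → Set (E n)) (τ : Fin n → ℤ) : Set (E n) := (⋃ i ∈ S, D i τ)ᶜ

theorem measurableSet_Dr (h : Rgs S D) (τ : Fin n → ℤ) : MeasurableSet (Dr S D τ) :=
  (S.measurableSet_biUnion fun i hi => h.meas i hi τ).compl

variable (hL : 1 ≤ L) (h : Rgs S D) (hG : Bd 1 G)
include hL h hG

theorem pcb {i : ι} (hi : i ∈ S) (τ : Fin n → ℤ) : Bd 2 (pc L (D i τ) (Gc L G τ)) := by
  refine (pc_bd (by linarith) (h.meas i hi τ) (h.bdd i hi τ) (Gc_bd hG τ)).mono ?_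
  have : 1 / L ≤ 1 := by rw [div_le_one (by linarith)]; exact hL
  linarith

theorem Hi_bd {i : ι} (hi : i ∈ S) : Bd 2 (Hi L D G i) := Bd.sum _ fun τ _ => pcb hL h hG hi τ

theorem Hr_bd (τ : Fin n → ℤ) : Bd 2 (Hr L S D G τ) := by
  have h1 : Bd 2 (fun η => ∑ i ∈ S, pc L (D i τ) (Gc L G τ) η) := Bd.sum _ fun i hi => pcb hL h hG hi τ
  have h2 := ((Gc_bd (L := L) hG τ).mono (by norm_num : (1:ℝ) ≤ 2)).add h1.neg
  have h3 : Hr L S D G τ = fun η => Gc L G τ η + -∑ i ∈ S, pc L (D i τ) (Gc L G τ) η := by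
    ext η; unfold Hr; rw [sub_eq_add_neg]
  rw [h3]
  exact h2

theorem inv_Hr (τ : Fin n → ℤ) (x : E n) : (𝓕⁻ (Hr L S D G τ) : E n → ℂ) x =
    (W L (Dr S D τ) x : ℝ) * (𝓕⁻ (Gc L G τ) : E n → ℂ) x := by
  have hL0 : 0 < L := by linarith
  rw [inv_eq_evo]
  unfold Hr
  rw [evo_sub (Gc_bd hG τ).integrable (Bd.sum S fun i hi => pcb hL h hG hi τ).integrable,
    evo_sum S fun i hi => (pcb hL h hG hi τ).integrable, ← inv_eq_evo]
  have h1 : ∀ i ∈ S, evo (pc L (D i τ) (Gc L G τ)) x 0 0 = (W L (D i τ) x : ℝ) * (𝓕⁻ (Gc L G τ) : E n → ℂ) x := by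
    intro i hi
    rw [← inv_eq_evo, inv_pc hL0 (h.meas i hi τ) (h.bdd i hi τ) (Gc_bd hG τ).integrable]
  rw [Finset.sum_congr rfl h1, ← Finset.sum_mul]
  have h2 : W L (Dr S D τ) x = 1 - ∑ i ∈ S, W L (D i τ) x := by
    unfold Dr
    rw [W_compl hL0 (S.measurableSet_biUnion fun i hi => h.meas i hi τ),
      W_biUnion hL0 S (fun i => D i τ) (fun i hi => h.meas i hi τ) fun i hi j hj hij => h.disj i hi j hj hij τ]
  rw [h2]
  push_cast
  ring

theorem inv_Hi_piece {i : ι} (hi : i ∈ S) (τ : Fin n → ℤ) (x : E n) : (𝓕⁻ (pc L (D i τ) (Gc L G τ)) : E n → ℂ) x =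
    (W L (D i τ) x : ℝ) * (𝓕⁻ (Gc L G τ) : E n → ℂ) x :=
  inv_pc (by linarith) (h.meas i hi τ) (h.bdd i hi τ) (Gc_bd hG τ).integrable x

theorem Hr_cell (τ : Fin n → ℤ) {η : E n} (hη : Hr L S D G τ η ≠ 0) (k : Fin n) : |2 * η k - τ k / L| ≤ 3 / L := by
  have hL0 : 0 < L := by linarith
  by_cases h1 : Gc L G τ η = 0
  · have h2 : ∑ i ∈ S, pc L (D i τ) (Gc L G τ) η ≠ 0 := by
      intro h3
      exact hη (by unfold Hr; rw [h1, h3, sub_zero])
    obtain ⟨i, hi, h4⟩ := Finset.exists_ne_zero_of_sum_ne_zero h2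
    exact pc_cell hL0 (h.meas i hi τ) (h.bdd i hi τ) h4 k
  · have h3 : η ∈ cel L τ := by
      by_contra hn
      exact h1 (indicator_of_notMem hn _)
    exact (cel_near hL0 h3 k).trans (div_le_div_of_nonneg_right (by norm_num) hL0.le)

theorem Hr_fam : Fam L (TT n L) (Hr L S D G) := ⟨fun τ _ => (Hr_bd hL h hG τ).mono (by norm_num), fun τ _ η hη k => Hr_cell hL h hG τ hη k⟩

theorem norm_sq_inv_Hr (τ : Fin n → ℤ) (x : E n) : ‖(𝓕⁻ (Hr L S D G τ) : E n → ℂ) x‖ ^ 2 ≤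
    W L (Dr S D τ) x * ‖(𝓕⁻ (Gc L G τ) : E n → ℂ) x‖ ^ 2 := by
  have hL0 : 0 < L := by linarith
  rw [inv_Hr hL h hG, norm_mul, mul_pow, Complex.norm_real, Real.norm_of_nonneg (W_nonneg _ _)]
  gcongr
  have := W_le_one hL0 (Dr S D τ) x
  have := W_nonneg (L := L) (Dr S D τ) x
  nlinarith

theorem mass_Hr : ∑ τ ∈ TT n L, ∫ η, ‖Hr L S D G τ η‖ ^ 2 ≤ ∫ η, ‖G η‖ ^ 2 := by
  have hL0 : 0 < L := by linarith
  rw [← sum_mass hL0 hG]
  refine Finset.sum_le_sum fun τ _ => ?_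
  rw [← (Hr_bd hL h hG τ).planch]
  refine integral_mono (Hr_bd hL h hG τ).int_sq (Gc_bd hG τ).int_sq fun x => ?_
  refine (norm_sq_inv_Hr hL h hG τ x).trans ?_
  have := W_le_one hL0 (Dr S D τ) x
  nlinarith [sq_nonneg ‖(𝓕⁻ (Gc L G τ) : E n → ℂ) x‖]

theorem evo_cl_piece (C : Finset ι) (hC : C ⊆ S) (τ : Fin n → ℤ) (x : E n) :
    (𝓕⁻ (fun η => ∑ i ∈ C, pc L (D i τ) (Gc L G τ) η) : E n → ℂ) x =
      ((∑ i ∈ C, W L (D i τ) x : ℝ) : ℂ) * (𝓕⁻ (Gc L G τ) : E n → ℂ) x := by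
  rw [inv_eq_evo, evo_sum C fun i hi => (pcb hL h hG (hC hi) τ).integrable]
  have h1 : ∀ i ∈ C, evo (pc L (D i τ) (Gc L G τ)) x 0 0 = (W L (D i τ) x : ℝ) * (𝓕⁻ (Gc L G τ) : E n → ℂ) x := by
    intro i hi
    rw [← inv_eq_evo, inv_Hi_piece hL h hG (hC hi)]
  rw [Finset.sum_congr rfl h1, ← Finset.sum_mul]
  push_cast
  rfl

theorem sum_W_le (C : Finset ι) (hC : C ⊆ S) (τ : Fin n → ℤ) (x : E n) : ∑ i ∈ C, W L (D i τ) x ≤ 1 := by
  rw [← W_biUnion (by linarith) C (fun i => D i τ) (fun i hi => h.meas i (hC hi) τ)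
    fun i hi j hj hij => h.disj i (hC hi) j (hC hj) hij τ]
  exact W_le_one (by linarith) _ x

theorem mass_cl {κ : Type*} (J : Finset κ) (C : κ → Finset ι) (hC : ∀ j ∈ J, C j ⊆ S)
    (hd : ∀ j ∈ J, ∀ j' ∈ J, j ≠ j' → Disjoint (C j) (C j')) :
    ∑ j ∈ J, ∫ η, ‖∑ i ∈ C j, Hi L D G i η‖ ^ 2 ≤ 7 ^ n * ∫ η, ‖G η‖ ^ 2 := by
  classical
  have hL0 : 0 < L := by linarith
  have hi1 : ∀ i ∈ S, ∀ τ, Integrable fun x => W L (D i τ) x * ‖(𝓕⁻ (Gc L G τ) : E n → ℂ) x‖ ^ 2 := by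
    intro i hi τ
    refine ((Gc_bd (L := L) hG τ).int_sq).bdd_mul (c := 1) ?_ ?_
    · exact (continuous_W hL0 (h.meas i hi τ) (h.bdd i hi τ)).aestronglyMeasurable
    · refine Filter.Eventually.of_forall fun x => ?_
      rw [Real.norm_of_nonneg (W_nonneg _ _)]
      exact W_le_one hL0 _ x
  have hb : ∀ j ∈ J, ∀ τ, Bd 2 (fun η => ∑ i ∈ C j, pc L (D i τ) (Gc L G τ) η) := fun j hj τ =>
    Bd.sum _ fun i hi => pcb hL h hG (hC j hj hi) τ
  have h1 : ∀ j ∈ J, ∫ η, ‖∑ i ∈ C j, Hi L D G i η‖ ^ 2 ≤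
      7 ^ n * ∑ τ ∈ TT n L, ∫ x, ∑ i ∈ C j, W L (D i τ) x * ‖(𝓕⁻ (Gc L G τ) : E n → ℂ) x‖ ^ 2 := by
    intro j hj
    have h0 : ∀ η, ∑ i ∈ C j, Hi L D G i η = ∑ τ ∈ TT n L, ∑ i ∈ C j, pc L (D i τ) (Gc L G τ) η := by
      intro η
      unfold Hi
      rw [Finset.sum_comm]
    simp only [h0]
    have h2 := int_sq_sum_le hL0 (by norm_num : (0:ℝ) ≤ 3) (TT n L) (fun τ η => ∑ i ∈ C j, pc L (D i τ) (Gc L G τ) η)
      (fun τ _ => hb j hj τ) (fun τ _ η hη k => by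
        obtain ⟨i, hi, h4⟩ := Finset.exists_ne_zero_of_sum_ne_zero hη
        exact pc_cell hL0 (h.meas i (hC j hj hi) τ) (h.bdd i (hC j hj hi) τ) h4 k)
    have h3 : ((2:ℝ) * 3 + 1) = 7 := by norm_num
    rw [h3] at h2
    refine h2.trans (mul_le_mul_of_nonneg_left (Finset.sum_le_sum fun τ _ => ?_) (by positivity))
    rw [← (hb j hj τ).planch]
    refine integral_mono (hb j hj τ).int_sq (integrable_finsetSum _ fun i hi => hi1 i (hC j hj hi) τ) fun x => ?_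
    simp only
    rw [evo_cl_piece hL h hG (C j) (hC j hj), norm_mul, mul_pow, Complex.norm_real,
      Real.norm_of_nonneg (Finset.sum_nonneg fun i _ => W_nonneg _ _), ← Finset.sum_mul]
    gcongr
    have h5 := sum_W_le hL h hG (C j) (hC j hj) τ x
    have h6 : 0 ≤ ∑ i ∈ C j, W L (D i τ) x := Finset.sum_nonneg fun i _ => W_nonneg _ _
    nlinarith
  refine (Finset.sum_le_sum h1).trans ?_
  rw [← Finset.mul_sum, Finset.sum_comm]
  refine mul_le_mul_of_nonneg_left ?_ (by positivity)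
  rw [← sum_mass hL0 hG]
  refine Finset.sum_le_sum fun τ _ => ?_
  have hi2 : ∀ j ∈ J, Integrable fun x => ∑ i ∈ C j, W L (D i τ) x * ‖(𝓕⁻ (Gc L G τ) : E n → ℂ) x‖ ^ 2 :=
    fun j hj => integrable_finsetSum _ fun i hi => hi1 i (hC j hj hi) τ
  rw [← integral_finsetSum _ hi2]
  refine integral_mono (integrable_finsetSum _ hi2) (Gc_bd hG τ).int_sq fun x => ?_
  simp only
  rw [← Finset.sum_biUnion fun j hj j' hj' hjj => hd j hj j' hj' hjj, ← Finset.sum_mul]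
  have h7 := sum_W_le hL h hG (J.biUnion C) (Finset.biUnion_subset.2 hC) τ x
  nlinarith [sq_nonneg ‖(𝓕⁻ (Gc L G τ) : E n → ℂ) x‖]

theorem sum_all (η : E n) : G η = (∑ τ ∈ TT n L, Hr L S D G τ η) + ∑ i ∈ S, Hi L D G i η := by
  rw [← sum_Gc (by linarith : 0 < L) hG η]
  unfold Hr Hi
  rw [Finset.sum_sub_distrib, Finset.sum_comm (s := S)]
  ring

theorem evo_all (x : E n) (t : ℝ) : evo G x t 0 = evo (fun η => ∑ τ ∈ TT n L, Hr L S D G τ η) x t 0 + ∑ i ∈ S, evo (Hi L D G i) x t 0 := by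
  have h1 : G = fun η => (∑ τ ∈ TT n L, Hr L S D G τ η) + ∑ i ∈ S, Hi L D G i η := funext fun η => sum_all hL h hG η
  conv_lhs => rw [h1]
  rw [evo_add (Bd.sum _ fun τ _ => Hr_bd hL h hG τ).integrable (Bd.sum _ fun i hi => Hi_bd hL h hG hi).integrable,
    evo_sum S fun i hi => (Hi_bd hL h hG hi).integrable]

end

end Vale.Agent.P076N.A
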