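import Vale.Agent.P076N.Fun
import Vale.Agent.P076N.Amp

/-! # P076N / A : interface of the assembly in dimension `n` (helper13)

`SS n` (single scale) follows from `TS n` (thick slab, lossless) and `NS n` (no thick plate: power gain);
`NS n` follows from `AT2 n` and the construction `AMPX n` of the amplitudes. -/

open MeasureTheory Complex FourierTransform

namespace Vale.Agent.P076N

open Vale.Agent.P076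

variable {n : ℕ}

/-- pieces: `H τ` supported near the frequency cell `2η ∈ (τ + [0,1)^n)/L` -/
structure Fam (L : ℝ) (T : Finset (Zv n)) (H : Zv n → E n → ℂ) : Prop where
  bd : ∀ τ ∈ T, Bd 4 (H τ)
  cell : ∀ τ ∈ T, ∀ η, H τ η ≠ 0 → ∀ k, |2 * η k - τ k / L| ≤ 3 / L

/-- mass of the pieces in the plate `|e·x - b - v t| ≤ p L`, `t ∈ [0, L²]`, localised to `|x| ≤ L²` -/
noncomputable def plm (p L : ℝ) (e : E n) (v b : ℝ) (T : Finset (Zv n)) (H : Zv n → E n → ℂ) : ℝ :=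
  ∑ τ ∈ T.filter (fun τ => |inner ℝ e (toV τ) / L - v| ≤ p / L),
    ∫ y : E n, ‖(𝓕⁻ (H τ) : E n → ℂ) y‖ ^ 2 * ((1 + |inner ℝ e y - b| / (p * L) + ‖y‖ / L ^ 2) ^ 4)⁻¹

/-- **[AMPX]** the amplitudes of a family of pieces, `D = 2 ^ N`, `L = D ^ K` -/
def AMPX (n : ℕ) : Prop := ∀ K : ℕ, 1 ≤ K → ∃ C : ℝ, 1 ≤ C ∧ ∀ (N : ℕ) (L : ℝ) (T : Finset (Zv n))
  (H : Zv n → E n → ℂ) (Q : ℝ), 2 ≤ N → L = ((2 : ℝ) ^ N) ^ K → Fam L T H → ∑ τ ∈ T, en (H τ) ≤ Q →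
    ∃ F : Amp n (2 ^ N) K C Q,
      (∀ (p : E n × ℝ) (y : Zv n) (s : ℤ), (∀ l, |p.1 l - y l| ≤ 1) → |p.2 - s| ≤ 1 → ∃ c : Zv n, (∀ l, |c l| ≤ 10) ∧
        ‖Uu (fun η => ∑ τ ∈ T, H τ η) p‖ ≤ C * F.a 0 ⟨c, fun l => y l - s * c l, s⟩ (below (2 ^ N) K c)) ∧
      ∀ c : ℝ, 0 ≤ c → (∀ (e : E n) (v b : ℝ), ‖e‖ = 1 → plm (L ^ c) L e v b T H ≤ L ^ (-c) * Q) → NoPl F c

/-- **[NS]** no thick plate: power gain.  `L = (2^N)^K`, `R = L²`. -/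
def NS (n : ℕ) : Prop := ∀ c : ℝ, 0 < c → ∃ κ : ℝ, 0 < κ ∧ ∃ K : ℕ, 1 ≤ K ∧ ∀ B : ℝ, ∃ C' L₀ : ℝ, 0 ≤ C' ∧ 0 ≤ L₀ ∧
  ∀ (N : ℕ) (L : ℝ) (T : Finset (Zv n)) (H : Zv n → E n → ℂ) (Q α : ℝ) (A : Finset (E n × ℝ)),
    L = ((2 : ℝ) ^ N) ^ K → L₀ ≤ L → Fam L T H → ∑ τ ∈ T, en (H τ) ≤ Q →
    (∀ (e : E n) (v b : ℝ), ‖e‖ = 1 → plm (L ^ c) L e v b T H ≤ L ^ (-c) * Q) → 0 ≤ α → Gph B A →
    Big (fun η => ∑ τ ∈ T, H τ η) A α (L ^ 2) → (∀ p ∈ A, ‖p.1‖ ≤ L ^ 2) →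
      α ^ 2 * A.card ≤ C' * L ^ (2 * (n / (n + 1)) - κ : ℝ) * Q

end Vale.Agent.P076N
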