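import Vale.Agent.P076N.A.Loc
import Vale.Agent.P076N.A.Cl

/-! # P076N / A : strips of the clusters, exceptional points -/

open MeasureTheory Complex FourierTransform Convolution Set

set_option linter.all false

namespace Vale.Agent.P076N.A

open Vale.Agent.P076

variable {n : ℕ}

theorem pc_empty {L : ℝ} (G : E n → ℂ) (η : E n) : pc L ∅ G η = 0 := by
  have h1 : Wc L (∅ : Set (E n)) = 0 := by
    ext x
    unfold Wc
    rw [W_empty]
    simp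
  have h2 : (𝓕 (Wc L ∅) : E n → ℂ) = 0 := by
    rw [h1]
    ext ξ
    rw [Real.fourier_eq]
    simp
  unfold pc
  rw [h2, zero_convolution]
  rfl

/-- the data of the plate `i` live in a slab -/
theorem strip_i {p L ρ : ℝ} (hL : 1 ≤ L) (hp : 1 ≤ p) {γ : ℕ → Plt n} {G : E n → ℂ} {i : ℕ} {η : E n}
    (he : ‖(γ i).e‖ = 1) (h : Hi L (D0 p L ρ γ) G i η ≠ 0) :
    |inner ℝ (γ i).e η - (γ i).v / 2| ≤ (2 * n + 1) * p / L := by
  have hL0 : 0 < L := by linarith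
  unfold Hi at h
  obtain ⟨τ, hτ, h1⟩ := Finset.exists_ne_zero_of_sum_ne_zero h
  have hR := rgs_D0 p L ρ γ (i + 1)
  have hi : i ∈ Finset.range (i + 1) := Finset.self_mem_range_succ i
  have hst : |inner ℝ (γ i).e (toV τ) / L - (γ i).v| ≤ p / L := by
    by_contra hcon
    have h2 : D0 p L ρ γ i τ = ∅ := by
      rw [Set.eq_empty_iff_forall_notMem]
      intro z hz
      exact hcon ((D0_subset p L ρ γ i τ) hz).1
    rw [h2] at h1
    exact h1 (pc_empty _ _)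
  have h3 : ∀ k, |2 * η k - τ k / L| ≤ 3 / L := fun k => pc_cell hL0 (hR.meas i hi τ) (hR.bdd i hi τ) h1 k
  have h4 : |inner ℝ (γ i).e ((2 : ℝ) • η - L⁻¹ • toV τ)| ≤ n * (3 / L) := abs_fn_le he fun k => by
    rw [PiLp.sub_apply, PiLp.smul_apply, PiLp.smul_apply, smul_eq_mul, smul_eq_mul, ← div_eq_inv_mul]
    exact h3 k
  rw [inner_sub_right, real_inner_smul_right, real_inner_smul_right, ← div_eq_inv_mul] at h4
  have h6 : |2 * inner ℝ (γ i).e η - (γ i).v| ≤ n * (3 / L) + p / L := (abs_sub_le _ _ _).trans (add_le_add h4 hst)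
  have h7 : inner ℝ (γ i).e η - (γ i).v / 2 = (2 * inner ℝ (γ i).e η - (γ i).v) / 2 := by ring
  rw [h7, abs_div, abs_of_pos (by norm_num : (0:ℝ) < 2)]
  have h8 : (n * (3 / L) + p / L) / 2 ≤ (2 * n + 1) * p / L := by
    have : (n * (3 / L) + p / L) / 2 = (3 * n + p) / 2 / L := by field_simp
    rw [this]
    refine div_le_div_of_nonneg_right ?_ hL0.le
    have hn : (0 : ℝ) ≤ n := Nat.cast_nonneg n
    nlinarith
  linarith

/-! ## the normal vectors over the velocity -/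

noncomputable def mv (γ : Plt n) : E n := γ.v⁻¹ • γ.e

theorem inner_mv {γ : Plt n} (hv : γ.v ≠ 0) (x : E n) : γ.v * inner ℝ (mv γ) x = inner ℝ γ.e x := by
  unfold mv
  rw [real_inner_smul_left]
  field_simp

/-- near a plate -/
def near (p L : ℝ) (γ : Plt n) (x : E n) (t : ℝ) : Prop := |inner ℝ γ.e x - γ.b - γ.v * t| ≤ 5 * (p * L)

/-- two plates -/
theorem two_plates {p L κ r : ℝ} (hL : 0 < L) (hp : 0 < p) (hκ : 0 < κ) (hr : 0 < r) {γ γ' : Plt n} (h1 : κ ≤ γ.v) (h2 : κ ≤ γ'.v)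
    (hd : r < ‖mv γ - mv γ'‖) : ∃ (φ : E n) (β : ℝ), ‖φ‖ = 1 ∧ ∀ (x : E n) (t : ℝ), near p L γ x t → near p L γ' x t →
      |inner ℝ φ x - β| ≤ 10 * (p * L) / (κ * r) := by
  have hv : 0 < γ.v := by linarith
  have hv' : 0 < γ'.v := by linarith
  have hn : 0 < ‖mv γ - mv γ'‖ := by linarith
  obtain ⟨φ, hφ1, hφ⟩ : ∃ φ : E n, ‖φ‖ = 1 ∧ ∀ x : E n, inner ℝ (mv γ - mv γ') x = ‖mv γ - mv γ'‖ * inner ℝ φ x := by
    refine ⟨‖mv γ - mv γ'‖⁻¹ • (mv γ - mv γ'), ?_, fun x => ?_⟩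
    · rw [norm_smul, norm_inv, norm_norm, inv_mul_cancel₀ hn.ne']
    · rw [real_inner_smul_left, ← mul_assoc, mul_inv_cancel₀ hn.ne', one_mul]
  refine ⟨φ, (γ.b / γ.v - γ'.b / γ'.v) / ‖mv γ - mv γ'‖, hφ1, fun x t hx hx' => ?_⟩
  unfold near at hx hx'
  have e1 : |inner ℝ (mv γ) x - γ.b / γ.v - t| ≤ 5 * (p * L) / κ := by
    have h3 : inner ℝ (mv γ) x - γ.b / γ.v - t = (inner ℝ γ.e x - γ.b - γ.v * t) / γ.v := by
      rw [← inner_mv hv.ne']; field_simp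
    rw [h3, abs_div, abs_of_pos hv]
    exact div_le_div₀ (by positivity) hx hκ h1
  have e2 : |inner ℝ (mv γ') x - γ'.b / γ'.v - t| ≤ 5 * (p * L) / κ := by
    have h3 : inner ℝ (mv γ') x - γ'.b / γ'.v - t = (inner ℝ γ'.e x - γ'.b - γ'.v * t) / γ'.v := by
      rw [← inner_mv hv'.ne']; field_simp
    rw [h3, abs_div, abs_of_pos hv']
    exact div_le_div₀ (by positivity) hx' hκ h2
  have e3 : inner ℝ φ x - (γ.b / γ.v - γ'.b / γ'.v) / ‖mv γ - mv γ'‖ =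
      ((inner ℝ (mv γ) x - γ.b / γ.v - t) - (inner ℝ (mv γ') x - γ'.b / γ'.v - t)) / ‖mv γ - mv γ'‖ := by
    have h4 := hφ x
    rw [inner_sub_left] at h4
    have h5 : inner ℝ φ x = (inner ℝ (mv γ) x - inner ℝ (mv γ') x) / ‖mv γ - mv γ'‖ := by rw [h4]; field_simp
    rw [h5, ← sub_div]
    congr 1
    ring
  rw [e3, abs_div, abs_of_pos hn]
  have e4 := abs_sub (inner ℝ (mv γ) x - γ.b / γ.v - t) (inner ℝ (mv γ') x - γ'.b / γ'.v - t)
  calc _ ≤ (10 * (p * L) / κ) / r := by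
        refine div_le_div₀ (by positivity) ?_ hr hd.le
        calc _ ≤ _ := e4
          _ ≤ 5 * (p * L) / κ + 5 * (p * L) / κ := add_le_add e1 e2
          _ = 10 * (p * L) / κ := by ring
    _ = 10 * (p * L) / (κ * r) := by rw [div_div]

/-- the strip of a cluster -/
theorem strip_cl {p L ρ κ r : ℝ} (hL : 1 ≤ L) (hp : 1 ≤ p) (hκ : 0 < κ) (hr : 0 ≤ r) {γ : ℕ → Plt n} {G : E n → ℂ} {i i0 : ℕ} {η : E n}
    (he : ‖(γ i).e‖ = 1) (h : Hi L (D0 p L ρ γ) G i η ≠ 0) (hη : ‖η‖ ≤ 2) (h1 : κ ≤ (γ i).v) (h2 : κ ≤ (γ i0).v) (h3 : (γ i0).v ≤ 4 * n + 1)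
    (hd : ‖mv (γ i) - mv (γ i0)‖ ≤ r) : |inner ℝ (γ i0).e η - (γ i0).v / 2| ≤ (4 * n + 1) * ((2 * n + 1) * p / (L * κ) + 2 * r) := by
  have hv : 0 < (γ i).v := by linarith
  have hv0 : 0 < (γ i0).v := by linarith
  have h4 := strip_i hL hp he h
  have e1 : |inner ℝ (mv (γ i)) η - 1 / 2| ≤ (2 * n + 1) * p / (L * κ) := by
    have h5 : inner ℝ (mv (γ i)) η - 1 / 2 = (inner ℝ (γ i).e η - (γ i).v / 2) / (γ i).v := by
      rw [← inner_mv hv.ne']; field_simp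
    rw [h5, abs_div, abs_of_pos hv]
    calc |inner ℝ (γ i).e η - (γ i).v / 2| / (γ i).v ≤ ((2 * n + 1) * p / L) / κ := div_le_div₀ (by positivity) h4 hκ h1
      _ = (2 * n + 1) * p / (L * κ) := by rw [div_div]
  have e2 : |inner ℝ (mv (γ i) - mv (γ i0)) η| ≤ 2 * r := by
    calc |inner ℝ (mv (γ i) - mv (γ i0)) η| ≤ ‖mv (γ i) - mv (γ i0)‖ * ‖η‖ := abs_real_inner_le_norm _ _
      _ ≤ r * 2 := mul_le_mul hd hη (norm_nonneg _) hr
      _ = 2 * r := by ring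
  rw [inner_sub_left] at e2
  have e3 : inner ℝ (γ i0).e η - (γ i0).v / 2 = (γ i0).v * ((inner ℝ (mv (γ i)) η - 1 / 2) - (inner ℝ (mv (γ i)) η - inner ℝ (mv (γ i0)) η)) := by
    rw [← inner_mv hv0.ne']; ring
  rw [e3, abs_mul, abs_of_pos hv0]
  refine mul_le_mul h3 ?_ (abs_nonneg _) (by positivity)
  exact (abs_sub _ _).trans (add_le_add e1 e2)

end Vale.Agent.P076N.A
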