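import Vale.Agent.P076N.A.Fin3

/-! # P076N / A : gluing, part 2: the main case -/

open MeasureTheory Complex FourierTransform Convolution Set

set_option linter.all false

namespace Vale.Agent.P076N.A

open Vale.Agent.P076

variable {n : ℕ}

/-- plates and clusters -/
theorem choose_plates {L c c' Cp ρ : ℝ} {G : E n → ℂ} (hL : 1 ≤ L) (hc : 0 < c) (hc1 : c ≤ 1) (hCp : 0 ≤ Cp) (hρ : ρ = L ^ (2 + c))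
    (hplm : ∀ (L c lam : ℝ) (G : E n → ℂ) (N : ℕ) (γ : ℕ → Plt n), 1 ≤ L → 0 < c → c ≤ 1 → Bd 1 G → 0 ≤ lam →
      (∀ γ' : Plt n, γ'.Ok → ms L G (fun τ => Pr (L ^ (2 * c)) L (L ^ (2 + c)) γ' τ \
        ⋃ i ∈ Finset.range N, Pr (L ^ (2 * c)) L (L ^ (2 + c)) (γ i) τ) ≤ lam) →
      ∀ (e : E n) (v b : ℝ), ‖e‖ = 1 → plm (L ^ c) L e v b (TT n L) (Hr L (Finset.range N) (D0 (L ^ (2 * c)) L (L ^ (2 + c)) γ) G) ≤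
        lam + Cp * L ^ (-(4 * c)) * ∫ η, ‖G η‖ ^ 2)
    (hG : Bd 1 G) (hM0 : 0 < ∫ η, ‖G η‖ ^ 2) :
    ∃ (N : ℕ) (γ : ℕ → Plt n) (cl : ℕ → ℕ), (N : ℝ) ≤ 2 * L ^ c ∧ Chosen (L ^ (2 * c)) L ρ (L ^ (-(c' / 4))) (L ^ (c' - 1)) N γ cl ∧
      (∀ (e : E n) (v b : ℝ), ‖e‖ = 1 → plm (L ^ c) L e v b (TT n L) (Hr L (Finset.range N) (D0 (L ^ (2 * c)) L ρ γ) G) ≤
        L ^ (-c) * ((1 + Cp) * ∫ η, ‖G η‖ ^ 2)) := by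
  subst hρ
  have hL0 : 0 < L := by linarith
  have hLc : 0 < L ^ (-c) := Real.rpow_pos_of_pos hL0 _
  have hr0 : 0 < L ^ (c' - 1) := Real.rpow_pos_of_pos hL0 _
  set M0 := ∫ η, ‖G η‖ ^ 2 with hM0def
  have hlam0 : 0 < 1 / 2 * L ^ (-c) * M0 := by positivity
  obtain ⟨N, γ, hNlam, hγv, hgr⟩ := greedy (L := L) (G := G) hL0 hG (L ^ (2 * c)) (L ^ (2 + c)) hlam0
  obtain ⟨cl, hcl1, hcl2⟩ := cluster (VV (L ^ (-(c' / 4))) N γ) (fun i => mv (γ i)) hr0.le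
  refine ⟨N, γ, cl, choose_N hL hM0 rfl hNlam, ⟨hγv, fun i hi => (hcl1 i hi).1,
    fun i hi => (hcl1 i hi).2, hcl2⟩, ?_⟩
  intro e v b he
  refine (hplm L c _ G N γ hL hc hc1 hG hlam0.le (fun γ' h1 => (hgr γ' h1).le) e v b he).trans ?_
  have h1 : L ^ (-(4 * c)) ≤ L ^ (-c) := Vale.Agent.P076.ASM.rp_le hL (by linarith)
  have h2 : Cp * L ^ (-(4 * c)) * M0 ≤ Cp * L ^ (-c) * M0 :=
    mul_le_mul_of_nonneg_right (mul_le_mul_of_nonneg_left h1 hCp) hM0.le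
  have h3 : L ^ (-c) * ((1 + Cp) * M0) = L ^ (-c) * M0 + Cp * L ^ (-c) * M0 := by ring
  have h4 : 0 < L ^ (-c) * M0 := by positivity
  have h5 : 1 / 2 * L ^ (-c) * M0 = (L ^ (-c) * M0) / 2 := by ring
  linarith

theorem glue {α a b X M0 R : ℝ} {S J : Finset ℕ} {f h : ℕ → ℝ} {c1 c2 c3 F : ℝ} (hcard : a ≤ b + (∑ i ∈ S, f i + ∑ j ∈ J, h j))
    (h1 : α ^ 2 * b ≤ c1 * F) (h2 : ∑ j ∈ J, α ^ 2 * h j ≤ c2 * F) (h3 : ∑ i ∈ S, α ^ 2 * f i ≤ c3 * F) :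
    α ^ 2 * a ≤ (c1 + c2 + c3) * F := by
  calc α ^ 2 * a ≤ α ^ 2 * (b + (∑ i ∈ S, f i + ∑ j ∈ J, h j)) := mul_le_mul_of_nonneg_left hcard (by positivity)
    _ = α ^ 2 * b + ∑ i ∈ S, α ^ 2 * f i + ∑ j ∈ J, α ^ 2 * h j := by rw [← Finset.mul_sum, ← Finset.mul_sum]; ring
    _ ≤ c1 * F + c3 * F + c2 * F := add_le_add (add_le_add h1 h3) h2
    _ = _ := by ring

/-- the main case -/
theorem main_case {B Z Z' q L₀ cT CT δT : ℝ} (hn : 1 ≤ n) (hB0 : 0 ≤ B) (hZ : Z = max 1 (B * (6 * n + 3) ^ n))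
    (hZ' : Z' = B * cG n * 58) (hq : 0 ≤ q) (hL₀ : 0 ≤ L₀) (hCT : 0 ≤ CT) (TS : TSb n B cT CT δT)
    {c c' δ' δ κN Cp Cl C' : ℝ} {K : ℕ} (hc'0 : 0 < c') (hc'T : c' ≤ cT / 2) (hc'1 : c' ≤ 1 / 2) (hδ'0 : 0 < δ') (hδ'T : δ' ≤ δT)
    (hδ'1 : δ' ≤ 1) (hcd : c = c' * δ' / 64) (hK : 1 ≤ K) (hκN : 0 < κN) (hC' : 0 ≤ C') (hCp : 0 ≤ Cp) (hCl : 0 ≤ Cl)
    (hδ0 : 0 < δ) (hδ1 : δ ≤ δT) (hδ2 : n * δ ≤ κN / 2) (hδ3 : n * δ ≤ c' * δ' / 32)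
    (NS : NSb n B c κN C' L₀ K)
    (hplm : ∀ (L c lam : ℝ) (G : E n → ℂ) (N : ℕ) (γ : ℕ → Plt n), 1 ≤ L → 0 < c → c ≤ 1 → Bd 1 G → 0 ≤ lam →
      (∀ γ' : Plt n, γ'.Ok → ms L G (fun τ => Pr (L ^ (2 * c)) L (L ^ (2 + c)) γ' τ \
        ⋃ i ∈ Finset.range N, Pr (L ^ (2 * c)) L (L ^ (2 + c)) (γ i) τ) ≤ lam) →
      ∀ (e : E n) (v b : ℝ), ‖e‖ = 1 → plm (L ^ c) L e v b (TT n L) (Hr L (Finset.range N) (D0 (L ^ (2 * c)) L (L ^ (2 + c)) γ) G) ≤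
        lam + Cp * L ^ (-(4 * c)) * ∫ η, ‖G η‖ ^ 2)
    (hloc : ∀ (L ρ : ℝ) (G : E n → ℂ) (N : ℕ) (γ : ℕ → Plt n) (i : ℕ) (x : E n) (t : ℝ),
      1 ≤ L → Bd 1 G → i < N → ‖(γ i).e‖ = 1 → |t| ≤ L ^ 2 → 5 * (L ^ (2 * c) * L) < |inner ℝ (γ i).e x - (γ i).b - (γ i).v * t| →
        ‖evo (Hi L (D0 (L ^ (2 * c)) L ρ γ) G i) x t 0‖ ^ 2 ≤ Cl * L ^ (-(2 * q + 2)) * ∫ η, ‖G η‖ ^ 2)
    {R : ℝ} {G : E n → ℂ} {A : Finset (E n × ℝ)} {α : ℝ} (hR : 1 ≤ R) (hα : 0 < α) (hG : Bd 1 G)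
    (hGr : Gr B R G A α) (hA : 1 ≤ A.card) (hR80 : cS n ≤ R ^ (cT / 2)) (hRCl : (64 * Cl) ^ 2 ≤ R) (hRL : L₀ ^ 2 ≤ R) (hM0 : 0 < ∫ η, ‖G η‖ ^ 2)
    (hαM : R ^ (-q) * ∫ η, ‖G η‖ ^ 2 ≤ α ^ 2) :
    α ^ 2 * A.card ≤ (16 * (C' * 4 ^ K * (1 + Cp)) + 4 * 7 ^ n * (CT * Z ^ δT) + 7 ^ n * (CT * (16 * (Z' * (4 ^ K) ^ n) ^ δT))) *
      (R ^ ((n : ℝ) / (n + 1)) * ((A.card : ℝ) / R ^ n) ^ δ * ∫ η, ‖G η‖ ^ 2) := by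
  classical
  obtain ⟨m0, hn1, hn2⟩ := exists_L K hK hR
  obtain ⟨L, hLdef⟩ : ∃ L : ℝ, L = (2:ℝ) ^ (K * m0) := ⟨_, rfl⟩
  rw [← hLdef] at hn1 hn2
  have hL : 1 ≤ L := by rw [hLdef]; exact one_le_pow₀ (by norm_num)
  have hc : 0 < c := by rw [hcd]; positivity
  have hcc' : c ≤ c' / 64 := by rw [hcd]; nlinarith
  have hc1 : c ≤ 1 := by linarith
  obtain ⟨N, γ, cl, hN, hch, hpl⟩ := choose_plates (c' := c') hL hc hc1 hCp rfl hplm hG hM0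
  have hx : Ctx L c c' δ' N R K := ⟨hL, hR, hn1, hn2, hc'0, hc'1, hδ'0, hδ'1, hcd, Nat.cast_nonneg N, hN⟩
  have hRg : Rgs (Finset.range N) (D0 (L ^ (2 * c)) L (L ^ (2 + c)) γ) := rgs_D0 _ L _ γ N
  have hcov := card_cover (cover (κ := L ^ (-(c' / 4))) hq hL hR hn1 hc (by linarith) hN hCl hRCl hα hG hGr hαM hch.mem
    (fun i x t h1 h2 h3 => hloc L (L ^ (2 + c)) G N γ i x t hL hG h1 (hch.ok i h1).e1 h2 h3))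
  have hR0 : 0 < R := by linarith
  have ha1 : 1 ≤ (A.card : ℝ) := Nat.one_le_cast.2 hA
  have ha0 : 0 < (A.card : ℝ) := by linarith
  obtain ⟨X, hX⟩ : ∃ X : ℝ, X = ((A.card : ℝ) / R ^ n) ^ δ := ⟨_, rfl⟩
  have hX0 : 0 < X := by rw [hX]; exact Real.rpow_pos_of_pos (by positivity) _
  have hgain : R ^ (-(n * δ)) ≤ X := by rw [hX]; exact num_gain ha1 hR hδ0
  have hZ1 : 1 ≤ Z := by rw [hZ]; exact le_max_left _ _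
  have ha15 : (A.card : ℝ) / R ^ n ≤ Z := by
    rw [div_le_iff₀ (by positivity)]
    refine (card_triv hGr.gph hB0 hR hGr.pos).trans (mul_le_mul_of_nonneg_right ?_ (by positivity))
    rw [hZ]; exact le_max_right _ _
  have hLL : L₀ ≤ L := (abs_le_of_sq_le_sq' (hRL.trans hn1) (by linarith)).2
  have hmassH : ∑ τ ∈ TT n L, ∫ η, ‖Hr L (Finset.range N) (D0 (L ^ (2 * c)) L (L ^ (2 + c)) γ) G τ η‖ ^ 2 ≤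
      (1 + Cp) * ∫ η, ‖G η‖ ^ 2 := by
    refine (mass_Hr hL hRg hG).trans ?_
    have := mul_nonneg hCp hM0.le
    linarith
  rw [← hX]
  refine glue (X := 0) (M0 := 0) (R := 0) hcov ?_ ?_ ?_
  · exact part1 hC' hCp hκN hδ2 NS hLdef hLL hL hR hn1 hn2 hgain hM0.le hα.le hGr (Finset.filter_subset _ _)
      (fun k hk => (Finset.mem_filter.1 hk).2) (Hr_fam hL hRg hG) hmassH hpl
  · exact part2 hCT TS hx hc'T hR80 hδ0 hδ1 hα.le hG hGr ha0 hX hX0 hZ1 ha15 hch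
  · exact part3 hn hB0 hZ' hCT TS hx hc'T hR80 hδ'T hδ3 hα.le hG hGr hX0 hgain hch

end Vale.Agent.P076N.A
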