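import Vale.Agent.P076N.A.Defs
import Vale.Agent.P076T.Ker

/-! # P076N / A : the kernel statement -/

open MeasureTheory Complex FourierTransform

set_option linter.all false

namespace Vale.Agent.P076N.A

open Vale.Agent.P076

/-- **(K)** a piece at time `t` is controlled by the piece at time `0`, transported with the velocity of the cell -/
theorem stKer (n M : ℕ) (c0 : ℝ) (hc : 1 ≤ c0) : ∃ C : ℝ, 0 ≤ C ∧ ∀ (L : ℝ) (τ : Fin n → ℤ) (H : E n → ℂ), 1 ≤ L → Bd 2 H →
  (∀ η, H η ≠ 0 → ∀ k, |2 * η k - τ k / L| ≤ c0 / L) → ∀ (x : E n) (t : ℝ), |t| ≤ c0 * L ^ 2 →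
    ‖evo H x t 0‖ ^ 2 ≤ C * (L ^ n)⁻¹ *
      ∫ y : E n, ‖(𝓕⁻ H : E n → ℂ) y‖ ^ 2 * ((1 + ‖x - y - (t / L) • toV τ‖ / L) ^ M)⁻¹ := by
  obtain ⟨C, hC, h⟩ := P076T.kernel_asm n M c0 (Nat.cast_nonneg M) (by linarith)
  refine ⟨C, hC, fun L τ H hL hH hs x t ht => ?_⟩
  have hL0 : 0 < L := by linarith
  have h1 := h L ((1 / (2 * L)) • toV τ) H hL0 hH.meas hH.bdd (fun η hη i => ?_) x t ht
  · have h2 : (2 * t) • ((1 / (2 * L)) • toV τ) = (t / L) • toV τ := by
      rw [smul_smul]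
      congr 1
      field_simp
    rw [h2] at h1
    rw [div_eq_mul_inv] at h1
    refine h1.trans_eq ?_
    congr 1
    refine integral_congr_ae (Filter.Eventually.of_forall fun y => ?_)
    simp only
    congr 1
    rw [Real.rpow_neg (by positivity), Real.rpow_natCast]
  · have h3 := hs η hη i
    have h4 : ((1 / (2 * L)) • toV τ) i = (τ i : ℝ) / L / 2 := by
      have : toV τ i = τ i := rfl
      simp only [PiLp.smul_apply, this, smul_eq_mul]
      field_simp
    rw [h4]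
    have h5 : |η i - (τ i : ℝ) / L / 2| = |2 * η i - τ i / L| / 2 := by
      have : η i - (τ i : ℝ) / L / 2 = (2 * η i - τ i / L) / 2 := by ring
      rw [this, abs_div, abs_of_pos (by norm_num : (0:ℝ) < 2)]
    rw [h5]
    have : 0 ≤ c0 / L := by positivity
    linarith

end Vale.Agent.P076N.A
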