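import Vale.Agent.P076N.A.Tail
import Vale.Agent.P076N.A.Ker0

/-! # P076N / A : localisation of the pieces near their plates -/

open MeasureTheory Complex FourierTransform Convolution Set

set_option linter.all false

namespace Vale.Agent.P076N.A

open Vale.Agent.P076

variable {n : ℕ}

theorem card_TT {L : ℝ} (hL : 1 ≤ L) : ((TT n L).card : ℝ) ≤ 9 ^ n * L ^ n := by
  unfold TT
  rw [Fintype.card_piFinset, Finset.prod_const, Finset.card_univ, Fintype.card_fin, Int.card_Icc]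
  have h1 : (⌈2 * L⌉ : ℝ) < 2 * L + 1 := Int.ceil_lt_add_one _
  have h2 : (0:ℤ) ≤ ⌈2 * L⌉ + 1 + 1 - -(⌈2 * L⌉ + 1) := by
    have : (0:ℤ) ≤ ⌈2 * L⌉ := Int.ceil_nonneg (by linarith)
    omega
  have h3 : (((⌈2 * L⌉ + 1 + 1 - -(⌈2 * L⌉ + 1)).toNat : ℕ) : ℝ) ≤ 9 * L := by
    have h4 : (((⌈2 * L⌉ + 1 + 1 - -(⌈2 * L⌉ + 1)).toNat : ℕ) : ℝ) = ((⌈2 * L⌉ + 1 + 1 - -(⌈2 * L⌉ + 1) : ℤ) : ℝ) := by
      rw [← Int.cast_natCast, Int.toNat_of_nonneg h2]
    rw [h4]
    push_cast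
    linarith
  push_cast
  calc _ ≤ (9 * L) ^ n := pow_le_pow_left₀ (by positivity) h3 n
    _ = 9 ^ n * L ^ n := mul_pow _ _ _

/-- **localisation** -/
theorem loc (n : ℕ) (c : ℝ) (hc : 0 < c) (P : ℝ) : ∃ C : ℝ, 0 ≤ C ∧ ∀ (L ρ : ℝ) (G : E n → ℂ) (N : ℕ) (γ : ℕ → Plt n) (i : ℕ) (x : E n) (t : ℝ),
    1 ≤ L → Bd 1 G → i < N → ‖(γ i).e‖ = 1 → |t| ≤ L ^ 2 → 5 * (L ^ (2 * c) * L) < |inner ℝ (γ i).e x - (γ i).b - (γ i).v * t| →
      ‖evo (Hi L (D0 (L ^ (2 * c)) L ρ γ) G i) x t 0‖ ^ 2 ≤ C * L ^ (-P) * ∫ η, ‖G η‖ ^ 2 := by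
  obtain ⟨M, hM⟩ : ∃ M : ℕ, P ≤ 2 * c * M := by
    obtain ⟨M, hM⟩ := exists_nat_ge (P / (2 * c))
    refine ⟨M, ?_⟩
    rw [div_le_iff₀ (by positivity)] at hM
    linarith
  obtain ⟨C1, hC1, hker⟩ := stKer n M 3 (by norm_num)
  obtain ⟨C2, hC2, htail⟩ := W_tail n M
  refine ⟨9 ^ n * (C1 * (1 + C2)), by positivity, ?_⟩
  intro L ρ G N γ i x t hL hG hi he ht hx
  have hL0 : 0 < L := by linarith
  set p := L ^ (2 * c) with hp
  have hp0 : 0 < p := Real.rpow_pos_of_pos hL0 _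
  have hp1 : 1 ≤ p := Real.one_le_rpow hL (by positivity)
  set S := Finset.range N with hS
  set D := D0 p L ρ γ with hD
  have hR : Rgs S D := rgs_D0 p L ρ γ N
  have hiS : i ∈ S := Finset.mem_range.2 hi
  have hpM : (p ^ M)⁻¹ ≤ L ^ (-P) := by
    rw [Real.rpow_neg hL0.le, hp, ← Real.rpow_natCast, ← Real.rpow_mul hL0.le]
    apply inv_anti₀ (Real.rpow_pos_of_pos hL0 _)
    exact Real.rpow_le_rpow_of_exponent_le hL hM
  have hpMn : 0 ≤ (p ^ M)⁻¹ := by positivity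
  have hp_le : ∀ a : ℝ, p ≤ a → ((1 + a) ^ M)⁻¹ ≤ (p ^ M)⁻¹ := fun a ha =>
    inv_anti₀ (by positivity) (pow_le_pow_left₀ hp0.le (by linarith) M)
  -- one cell
  have hone : ∀ τ ∈ TT n L, ‖evo (pc L (D i τ) (Gc L G τ)) x t 0‖ ^ 2 ≤
      C1 * (L ^ n)⁻¹ * ((1 + C2) * (p ^ M)⁻¹ * ∫ y : E n, ‖(𝓕⁻ (Gc L G τ) : E n → ℂ) y‖ ^ 2) := by
    intro τ hτ
    have h1 := hker L τ (pc L (D i τ) (Gc L G τ)) hL (pcb hL hR hG hiS τ)
      (fun η hη k => pc_cell hL0 (hR.meas i hiS τ) (hR.bdd i hiS τ) hη k) x t (by nlinarith)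
    refine h1.trans ?_
    have hC' : 0 ≤ C1 * (L ^ n)⁻¹ := by positivity
    refine mul_le_mul_of_nonneg_left ?_ hC'
    rw [← integral_const_mul]
    have hw : Continuous fun y : E n => ((1 + ‖x - y - (t / L) • toV τ‖ / L) ^ M)⁻¹ := by
      refine Continuous.inv₀ (by fun_prop) fun y => by positivity
    refine integral_mono ?_ ((Gc_bd hG τ).int_sq.const_mul _) fun y => ?_
    · refine ((pcb hL hR hG hiS τ).int_sq).mul_bdd (c := 1) hw.aestronglyMeasurable ?_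
      refine Filter.Eventually.of_forall fun y => ?_
      rw [Real.norm_of_nonneg (by positivity)]
      apply inv_le_one_of_one_le₀
      apply one_le_pow₀
      have : 0 ≤ ‖x - y - (t / L) • toV τ‖ / L := by positivity
      linarith
    simp only
    rw [inv_Hi_piece hL hR hG hiS, norm_mul, mul_pow, Complex.norm_real, Real.norm_of_nonneg (W_nonneg _ _)]
    set w := ((1 + ‖x - y - (t / L) • toV τ‖ / L) ^ M)⁻¹ with hwdef
    have hw0 : 0 ≤ w := by positivity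
    have hw1 : w ≤ 1 := by
      rw [hwdef]
      apply inv_le_one_of_one_le₀
      apply one_le_pow₀
      have : 0 ≤ ‖x - y - (t / L) • toV τ‖ / L := by positivity
      linarith
    have hWn := W_nonneg (L := L) (D i τ) y
    have hW1 := W_le_one hL0 (D i τ) y
    have hf0 : 0 ≤ ‖(𝓕⁻ (Gc L G τ) : E n → ℂ) y‖ ^ 2 := by positivity
    have hkey : W L (D i τ) y * w ≤ (1 + C2) * (p ^ M)⁻¹ := by
      by_cases hst : |inner ℝ (γ i).e (toV τ) / L - (γ i).v| ≤ p / L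
      · by_cases hy : |inner ℝ (γ i).e y - (γ i).b| ≤ 2 * (p * L)
        · -- the weight is small
          have h2 : p ≤ ‖x - y - (t / L) • toV τ‖ / L := by
            rw [le_div_iff₀ hL0]
            have h3 := abs_nx_le he (x - y - (t / L) • toV τ)
            rw [inner_sub_right, inner_sub_right, real_inner_smul_right] at h3
            have h4 : t / L * inner ℝ (γ i).e (toV τ) = t * (inner ℝ (γ i).e (toV τ) / L) := by ring
            rw [h4] at h3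
            have h5 : |t * (inner ℝ (γ i).e (toV τ) / L - (γ i).v)| ≤ p * L := by
              rw [abs_mul]
              calc |t| * |inner ℝ (γ i).e (toV τ) / L - (γ i).v| ≤ L ^ 2 * (p / L) :=
                    mul_le_mul ht hst (abs_nonneg _) (by positivity)
                _ = p * L := by field_simp
            have h6 : inner ℝ (γ i).e x - (γ i).b - (γ i).v * t =
                (inner ℝ (γ i).e x - inner ℝ (γ i).e y - t * (inner ℝ (γ i).e (toV τ) / L)) + (inner ℝ (γ i).e y - (γ i).b) +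
                t * (inner ℝ (γ i).e (toV τ) / L - (γ i).v) := by ring
            rw [h6] at hx
            have h7 := abs_add_three (inner ℝ (γ i).e x - inner ℝ (γ i).e y - t * (inner ℝ (γ i).e (toV τ) / L)) (inner ℝ (γ i).e y - (γ i).b)
              (t * (inner ℝ (γ i).e (toV τ) / L - (γ i).v))
            have h8 : 0 < p * L := by positivity
            linarith
          calc W L (D i τ) y * w ≤ 1 * (p ^ M)⁻¹ := mul_le_mul hW1 (hp_le _ h2) hw0 (by norm_num)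
            _ ≤ (1 + C2) * (p ^ M)⁻¹ := mul_le_mul_of_nonneg_right (by linarith) hpMn
        · push Not at hy
          have h2 : ∀ z ∈ D i τ, p * L ≤ ‖y - z‖ := by
            intro z hz
            have hz2 := ((D0_subset p L ρ γ i τ) hz).2.1
            have h3 := abs_nx_le he (y - z)
            rw [inner_sub_right] at h3
            have h4 := abs_sub_le (inner ℝ (γ i).e y) (inner ℝ (γ i).e z) (γ i).b
            linarith
          have h5 := htail L (p * L) (D i τ) y hL0 (by positivity) h2 (hR.meas i hiS τ)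
          have h6 : p * L / L = p := by field_simp
          rw [h6] at h5
          calc W L (D i τ) y * w ≤ W L (D i τ) y * 1 := mul_le_mul_of_nonneg_left hw1 hWn
            _ ≤ C2 * (p ^ M)⁻¹ := by
                rw [mul_one]
                exact h5.trans (mul_le_mul_of_nonneg_left (hp_le p le_rfl) hC2)
            _ ≤ (1 + C2) * (p ^ M)⁻¹ := mul_le_mul_of_nonneg_right (by linarith) hpMn
      · have h2 : D i τ = ∅ := by
          rw [Set.eq_empty_iff_forall_notMem]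
          intro z hz
          exact hst ((D0_subset p L ρ γ i τ) hz).1
        rw [h2, W_empty, zero_mul]
        positivity
    calc W L (D i τ) y ^ 2 * ‖(𝓕⁻ (Gc L G τ) : E n → ℂ) y‖ ^ 2 * w
        ≤ W L (D i τ) y * ‖(𝓕⁻ (Gc L G τ) : E n → ℂ) y‖ ^ 2 * w := by
          refine mul_le_mul_of_nonneg_right (mul_le_mul_of_nonneg_right ?_ hf0) hw0
          nlinarith
      _ = (W L (D i τ) y * w) * ‖(𝓕⁻ (Gc L G τ) : E n → ℂ) y‖ ^ 2 := by ring
      _ ≤ (1 + C2) * (p ^ M)⁻¹ * ‖(𝓕⁻ (Gc L G τ) : E n → ℂ) y‖ ^ 2 := mul_le_mul_of_nonneg_right hkey hf0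
  -- sum
  have h1 : evo (Hi L D G i) x t 0 = ∑ τ ∈ TT n L, evo (pc L (D i τ) (Gc L G τ)) x t 0 := by
    unfold Hi
    exact evo_sum (TT n L) (fun τ _ => (pcb hL hR hG hiS τ).integrable) x t
  rw [h1]
  calc ‖∑ τ ∈ TT n L, evo (pc L (D i τ) (Gc L G τ)) x t 0‖ ^ 2
      ≤ (∑ τ ∈ TT n L, ‖evo (pc L (D i τ) (Gc L G τ)) x t 0‖) ^ 2 := pow_le_pow_left₀ (norm_nonneg _) (norm_sum_le _ _) 2
    _ ≤ (TT n L).card * ∑ τ ∈ TT n L, ‖evo (pc L (D i τ) (Gc L G τ)) x t 0‖ ^ 2 := sq_sum_le_card_mul_sum_sq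
    _ ≤ (9 ^ n * L ^ n) * ∑ τ ∈ TT n L, (C1 * (L ^ n)⁻¹ * ((1 + C2) * (p ^ M)⁻¹ * ∫ y : E n, ‖(𝓕⁻ (Gc L G τ) : E n → ℂ) y‖ ^ 2)) := by
        refine mul_le_mul (card_TT hL) (Finset.sum_le_sum hone) (Finset.sum_nonneg fun _ _ => by positivity) (by positivity)
    _ = 9 ^ n * (C1 * (1 + C2)) * (p ^ M)⁻¹ * ∑ τ ∈ TT n L, ∫ y : E n, ‖(𝓕⁻ (Gc L G τ) : E n → ℂ) y‖ ^ 2 := by
        rw [← Finset.mul_sum, ← Finset.mul_sum]
        field_simp
    _ = 9 ^ n * (C1 * (1 + C2)) * (p ^ M)⁻¹ * ∫ η, ‖G η‖ ^ 2 := by rw [sum_mass hL0 hG]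
    _ ≤ 9 ^ n * (C1 * (1 + C2)) * L ^ (-P) * ∫ η, ‖G η‖ ^ 2 := by
        refine mul_le_mul_of_nonneg_right (mul_le_mul_of_nonneg_left hpM (by positivity)) (integral_nonneg fun _ => by positivity)

end Vale.Agent.P076N.A
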