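import Vale.Agent.P076N.A.Fin4

/-! # P076N / A : the assembly `TS n → NS n → SS n` -/

open MeasureTheory Complex FourierTransform Convolution Set

set_option linter.all false

namespace Vale.Agent.P076N.A

open Vale.Agent.P076
open Vale.Agent.P076.ASM (rp_le)

variable {n : ℕ}

theorem TSb.abs {B cT CT δT : ℝ} (TS0 : TSb n B cT CT δT) : TSb n B cT |CT| δT := by
  intro R G A α b ν hR hα hG hGr hν hst
  refine (TS0 R G A α b ν hR hα hG hGr hν hst).trans ?_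
  have hR0 : 0 < R := by linarith
  have hI : 0 ≤ ∫ η, ‖G η‖ ^ 2 := integral_nonneg fun _ => by positivity
  refine mul_le_mul_of_nonneg_right (mul_le_mul_of_nonneg_right (mul_le_mul_of_nonneg_right (le_abs_self _) ?_) ?_) hI
  · positivity
  · positivity

theorem rp_neg_nat {R : ℝ} (hR : 0 < R) (k : ℕ) : R ^ (-(k : ℝ)) = (R ^ k)⁻¹ := by
  rw [Real.rpow_neg hR.le, Real.rpow_natCast]

theorem F_low {R δ a M0 : ℝ} (hR : 1 ≤ R) (hδ0 : 0 < δ) (hδ1 : δ ≤ 1) (ha : 1 ≤ a) (hM0 : 0 ≤ M0) :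
    (R ^ n)⁻¹ * M0 ≤ R ^ ((n : ℝ) / (n + 1)) * (a / R ^ n) ^ δ * M0 := by
  have hR0 : 0 < R := by linarith
  have hX0 : 0 < (a / R ^ n) ^ δ := Real.rpow_pos_of_pos (by positivity) _
  have hgain : R ^ (-(n * δ)) ≤ (a / R ^ n) ^ δ := num_gain ha hR hδ0
  have hn0 : (0 : ℝ) ≤ n := Nat.cast_nonneg n
  have hgain2 : R ^ (-(n : ℝ)) ≤ (a / R ^ n) ^ δ := le_trans (rp_le hR (by nlinarith)) hgain
  have hR23 : 1 ≤ R ^ ((n : ℝ) / (n + 1)) := Real.one_le_rpow hR (s_nonneg n)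
  rw [← rp_neg_nat hR0]
  refine mul_le_mul_of_nonneg_right ?_ hM0
  calc R ^ (-(n : ℝ)) ≤ (a / R ^ n) ^ δ := hgain2
    _ = 1 * (a / R ^ n) ^ δ := (one_mul _).symm
    _ ≤ R ^ ((n : ℝ) / (n + 1)) * (a / R ^ n) ^ δ := mul_le_mul_of_nonneg_right hR23 hX0.le

theorem small_R {Z R R0 a M0 C0 α F : ℝ} (hZ : 0 ≤ Z) (hR : 1 ≤ R) (hRR : R ≤ R0) (ha0 : 0 ≤ a) (ha : a ≤ Z * R ^ n)
    (hM0 : 0 ≤ M0) (hC0 : 0 ≤ C0) (hα2 : α ^ 2 ≤ C0 * M0) (hF : (R ^ n)⁻¹ * M0 ≤ F) :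
    α ^ 2 * a ≤ Z * C0 * R0 ^ (2 * n) * F := by
  have hR0 : 0 < R := by linarith
  have hR00 : 0 < R0 := by linarith
  calc α ^ 2 * a ≤ (C0 * M0) * (Z * R ^ n) := mul_le_mul hα2 ha ha0 (by positivity)
    _ = Z * C0 * R ^ (2 * n) * ((R ^ n)⁻¹ * M0) := by rw [two_mul, pow_add]; field_simp
    _ ≤ Z * C0 * R0 ^ (2 * n) * ((R ^ n)⁻¹ * M0) := by
        refine mul_le_mul_of_nonneg_right ?_ (by positivity)
        exact mul_le_mul_of_nonneg_left (pow_le_pow_left₀ hR0.le hRR _) (by positivity)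
    _ ≤ _ := mul_le_mul_of_nonneg_left hF (by positivity)

theorem small_α {Z R a M0 α F : ℝ} (hZ : 0 ≤ Z) (hR : 1 ≤ R) (ha0 : 0 ≤ a) (ha : a ≤ Z * R ^ n) (hM0 : 0 ≤ M0)
    (hα : α ^ 2 ≤ R ^ (-((2 * n : ℕ) : ℝ)) * M0) (hF : (R ^ n)⁻¹ * M0 ≤ F) : α ^ 2 * a ≤ Z * F := by
  have hR0 : 0 < R := by linarith
  rw [rp_neg_nat hR0] at hα
  calc α ^ 2 * a ≤ ((R ^ (2 * n))⁻¹ * M0) * (Z * R ^ n) := mul_le_mul hα ha ha0 (by positivity)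
    _ = Z * ((R ^ n)⁻¹ * M0) := by rw [two_mul, pow_add]; field_simp
    _ ≤ _ := mul_le_mul_of_nonneg_left hF hZ

theorem rpow_R0 {S R cT : ℝ} (hS : 0 ≤ S) (hcT : 0 < cT) (h1 : S ^ (2 / cT) ≤ R) : S ≤ R ^ (cT / 2) := by
  calc S = (S ^ (2 / cT)) ^ (cT / 2) := by
        rw [← Real.rpow_mul hS]
        have : 2 / cT * (cT / 2) = 1 := by field_simp
        rw [this, Real.rpow_one]
    _ ≤ R ^ (cT / 2) := Real.rpow_le_rpow (by positivity) h1 (by positivity)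

/-- all cases, for fixed constants -/
theorem all_cases {B Z L₀ C1 C0 Cl cT δ R0 : ℝ} (hB0 : 0 ≤ B) (hZ : Z = max 1 (B * (6 * n + 3) ^ n)) (hcT : 0 < cT)
    (hC1 : 0 ≤ C1) (hC0 : 0 ≤ C0) (hδ0 : 0 < δ) (hδ1 : δ ≤ 1)
    (hR01 : cS n ^ (2 / cT) ≤ R0) (hR02 : (64 * Cl) ^ 2 ≤ R0) (hR03 : L₀ ^ 2 ≤ R0)
    (htriv : ∀ (G : E n → ℂ) (x : E n) (t : ℝ), Bd 1 G → ‖evo G x t 0‖ ^ 2 ≤ C0 * ∫ η, ‖G η‖ ^ 2)
    (hmain : ∀ (R : ℝ) (G : E n → ℂ) (A : Finset (E n × ℝ)) (α : ℝ), 1 ≤ R → 0 < α → Bd 1 G → Gr B R G A α →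
      1 ≤ A.card → cS n ≤ R ^ (cT / 2) → (64 * Cl) ^ 2 ≤ R → L₀ ^ 2 ≤ R → 0 < ∫ η, ‖G η‖ ^ 2 →
        R ^ (-((2 * n : ℕ) : ℝ)) * ∫ η, ‖G η‖ ^ 2 ≤ α ^ 2 →
        α ^ 2 * A.card ≤ C1 * (R ^ ((n : ℝ) / (n + 1)) * ((A.card : ℝ) / R ^ n) ^ δ * ∫ η, ‖G η‖ ^ 2))
    (R : ℝ) (G : E n → ℂ) (A : Finset (E n × ℝ)) (α : ℝ) (hR : 1 ≤ R) (hα : 0 ≤ α) (hG : Bd 1 G)
    (hGr : Gr B R G A α) :
    α ^ 2 * A.card ≤ (C1 + Z * C0 * R0 ^ (2 * n) + Z) * R ^ ((n : ℝ) / (n + 1)) * ((A.card : ℝ) / R ^ n) ^ δ *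
      ∫ η, ‖G η‖ ^ 2 := by
  have hM0n : 0 ≤ ∫ η, ‖G η‖ ^ 2 := integral_nonneg fun _ => by positivity
  obtain ⟨M0, hM0⟩ : ∃ M0 : ℝ, M0 = ∫ η, ‖G η‖ ^ 2 := ⟨_, rfl⟩
  have hRp : 0 < R := by linarith
  have hZ0 : 0 ≤ Z := by rw [hZ]; exact le_trans zero_le_one (le_max_left _ _)
  have hS0 : 0 ≤ cS n := by unfold cS; positivity
  have hR00 : 0 ≤ R0 := le_trans (sq_nonneg _) hR02
  obtain ⟨a, ha⟩ : ∃ a : ℝ, a = (A.card : ℝ) := ⟨_, rfl⟩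
  rcases A.eq_empty_or_nonempty with hAe | ⟨k0, hk0⟩
  · rw [hAe, Finset.card_empty, Nat.cast_zero, mul_zero, zero_div, Real.zero_rpow hδ0.ne', mul_zero, zero_mul]
  have hA1 : 1 ≤ A.card := Finset.card_pos.2 ⟨k0, hk0⟩
  have ha1 : 1 ≤ a := by rw [ha]; exact Nat.one_le_cast.2 hA1
  have ha15 : a ≤ Z * R ^ n := by
    rw [ha]
    refine (card_triv hGr.gph hB0 hR hGr.pos).trans (mul_le_mul_of_nonneg_right ?_ (by positivity))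
    rw [hZ]; exact le_max_right _ _
  obtain ⟨F, hF⟩ : ∃ F : ℝ, F = R ^ ((n : ℝ) / (n + 1)) * (a / R ^ n) ^ δ * M0 := ⟨_, rfl⟩
  have hFlow : (R ^ n)⁻¹ * M0 ≤ F := by rw [hF]; exact F_low hR hδ0 hδ1 ha1 (by rw [hM0]; exact hM0n)
  have hα2 : α ^ 2 ≤ C0 * M0 := by
    rw [hM0]
    exact (pow_le_pow_left₀ hα (hGr.big k0 hk0) 2).trans (htriv G k0.1 k0.2 hG)
  have hgoal : (C1 + Z * C0 * R0 ^ (2 * n) + Z) * R ^ ((n : ℝ) / (n + 1)) * ((A.card : ℝ) / R ^ n) ^ δ * ∫ η, ‖G η‖ ^ 2 =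
      C1 * F + Z * C0 * R0 ^ (2 * n) * F + Z * F := by rw [hF, ha, hM0]; ring
  rw [hgoal, ← ha]
  have hM0' : 0 ≤ M0 := by rw [hM0]; exact hM0n
  have hF0 : 0 ≤ F := le_trans (by positivity) hFlow
  have t1 : 0 ≤ C1 * F := by positivity
  have t2 : 0 ≤ Z * C0 * R0 ^ (2 * n) * F := by positivity
  have t3 : 0 ≤ Z * F := by positivity
  rcases lt_or_ge R R0 with hsmall | hlarge
  · have := small_R hZ0 hR hsmall.le (by linarith : 0 ≤ a) ha15 hM0' hC0 hα2 hFlow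
    linarith
  rcases lt_or_ge (α ^ 2) (R ^ (-((2 * n : ℕ) : ℝ)) * M0) with hαs | hαl
  · have := small_α hZ0 hR (by linarith : 0 ≤ a) ha15 hM0' hαs.le hFlow
    linarith
  rcases hα.eq_or_lt with hα0 | hαpos
  · rw [← hα0]
    have : (0:ℝ) ^ 2 * a = 0 := by ring
    rw [this]
    linarith
  have hM0pos : 0 < M0 := by
    rcases hM0'.eq_or_lt with h0 | h0
    · exfalso
      rw [← h0, mul_zero] at hα2
      have : 0 < α ^ 2 := by positivity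
      linarith
    · exact h0
  have h := hmain R G A α hR hαpos hG hGr hA1 (rpow_R0 hS0 hcT (hR01.trans hlarge)) (hR02.trans hlarge)
    (hR03.trans hlarge) (by rw [← hM0]; exact hM0pos) (by rw [← hM0]; exact hαl)
  rw [← ha, ← hM0, ← hF] at h
  linarith

theorem gph_nonneg {B : ℝ} {A : Finset (E n × ℝ)} (h : Gph B A) : 0 ≤ B := le_trans (Nat.cast_nonneg _) (h 0)

/-- **the assembly** -/
theorem ss_of (hn : 1 ≤ n) (hTS : TS n) (hNS : NS n) : SS n := by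
  obtain ⟨cT, δT, hcT, hδT, TS0⟩ := hTS
  have hn0 : (0 : ℝ) < n := Nat.cast_pos.2 hn
  have hn1 : (1 : ℝ) ≤ n := Nat.one_le_cast.2 hn
  obtain ⟨c', hc'⟩ : ∃ c' : ℝ, c' = min cT 1 / 2 := ⟨_, rfl⟩
  obtain ⟨δ', hδ'⟩ : ∃ δ' : ℝ, δ' = min δT 1 := ⟨_, rfl⟩
  have hc'0 : 0 < c' := by rw [hc']; have := lt_min hcT one_pos; linarith
  have hc'T : c' ≤ cT / 2 := by rw [hc']; have := min_le_left cT 1; linarith
  have hc'1 : c' ≤ 1 / 2 := by rw [hc']; have := min_le_right cT 1; linarith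
  have hδ'0 : 0 < δ' := by rw [hδ']; exact lt_min hδT one_pos
  have hδ'T : δ' ≤ δT := by rw [hδ']; exact min_le_left _ _
  have hδ'1 : δ' ≤ 1 := by rw [hδ']; exact min_le_right _ _
  obtain ⟨c, hcd⟩ : ∃ c : ℝ, c = c' * δ' / 64 := ⟨_, rfl⟩
  have hc : 0 < c := by rw [hcd]; positivity
  obtain ⟨κN, hκN, K, hK, NS1⟩ := hNS c hc
  obtain ⟨Cp, hCp, hplm⟩ := plm_rest n
  obtain ⟨Cl, hCl, hloc⟩ := loc n c hc (2 * ((2 * n : ℕ) : ℝ) + 2)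
  obtain ⟨C0, hC0, htriv⟩ := evo_triv n
  obtain ⟨δ, hδ⟩ : ∃ δ : ℝ, δ = min (min δT (κN / 2 / n)) (c' * δ' / 32 / n) := ⟨_, rfl⟩
  have hδ0 : 0 < δ := by rw [hδ]; exact lt_min (lt_min hδT (by positivity)) (by positivity)
  have hδ1 : δ ≤ δT := by rw [hδ]; exact (min_le_left _ _).trans (min_le_left _ _)
  have hδ2 : n * δ ≤ κN / 2 := by
    have : δ ≤ κN / 2 / n := by rw [hδ]; exact (min_le_left _ _).trans (min_le_right _ _)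
    rwa [le_div_iff₀' hn0] at this
  have hδ3 : n * δ ≤ c' * δ' / 32 := by
    have : δ ≤ c' * δ' / 32 / n := by rw [hδ]; exact min_le_right _ _
    rwa [le_div_iff₀' hn0] at this
  have hδle1 : δ ≤ 1 := by
    have h1 : c' * δ' ≤ 1 := by nlinarith
    nlinarith
  refine ⟨δ, hδ0, fun B => ?_⟩
  rcases lt_or_ge B 0 with hB | hB0
  · exact ⟨0, fun R G A α _ _ _ hA => absurd (gph_nonneg hA) (not_le.2 hB)⟩
  obtain ⟨CT0, TS1⟩ := TS0 B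
  have TS2 : TSb n B cT CT0 δT := fun R G A α b ν hR hα hG hGr hν hst =>
    TS1 R G A α b ν hR hα hG hGr.gph hGr.toBig hGr.pos hν hst
  have TS3 : TSb n B cT |CT0| δT := TSb.abs TS2
  have hCT : 0 ≤ |CT0| := abs_nonneg _
  obtain ⟨C', L₀, hC', hL₀, NS2⟩ := NS1 B
  have NS3 : NSb n B c κN C' L₀ K := fun N L T H Q α A hL hLL hF hQ hp hα hGr =>
    NS2 N L T H Q α A (by rw [hL, ← pow_mul, mul_comm]) hLL hF hQ hp hα hGr.gph hGr.toBig hGr.pos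
  obtain ⟨Z, hZ⟩ : ∃ Z : ℝ, Z = max 1 (B * (6 * n + 3) ^ n) := ⟨_, rfl⟩
  obtain ⟨Z', hZ'⟩ : ∃ Z' : ℝ, Z' = B * cG n * 58 := ⟨_, rfl⟩
  have hZ0 : 0 ≤ Z := by rw [hZ]; exact le_trans zero_le_one (le_max_left _ _)
  have hZ'0 : 0 ≤ Z' := by rw [hZ']; unfold cG; positivity
  refine ⟨(16 * (C' * 4 ^ K * (1 + Cp)) + 4 * 7 ^ n * (|CT0| * Z ^ δT) + 7 ^ n * (|CT0| * (16 * (Z' * (4 ^ K) ^ n) ^ δT))) +
    Z * C0 * (max (max (cS n ^ (2 / cT)) ((64 * Cl) ^ 2)) (L₀ ^ 2)) ^ (2 * n) + Z, ?_⟩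
  intro R G A α hR hα hG hA hbig hpos
  refine all_cases hB0 hZ hcT (by positivity) hC0 hδ0 hδle1 ((le_max_left _ _).trans (le_max_left _ _))
    ((le_max_right _ _).trans (le_max_left _ _)) (le_max_right _ _) htriv ?_ R G A α hR hα hG
    ⟨hA, hpos, fun k hk => (hbig k hk).1, fun k hk => (hbig k hk).2.1, fun k hk => (hbig k hk).2.2⟩
  intro R G A α hR hα hG hGr hA hR80 hRCl hRL hM0 hαM
  exact main_case hn hB0 hZ hZ' (Nat.cast_nonneg _) hL₀ hCT TS3 hc'0 hc'T hc'1 hδ'0 hδ'T hδ'1 hcd hK hκN hC' hCp hCl hδ0 hδ1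
    hδ2 hδ3 NS3 hplm hloc hR hα hG hGr hA hR80 hRCl hRL hM0 hαM

end Vale.Agent.P076N.A
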