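import Mathlib
import Vale.Agent.P076N.A.Defs

/-! # P076N / A : the mollifier -/

open MeasureTheory Complex FourierTransform SchwartzMap Convolution
open scoped ContDiff

set_option linter.all false

namespace Vale.Agent.P076N.A

open Vale.Agent.P076

variable {n : ℕ}

/-- the mollifier: rapidly decreasing, Fourier support in the unit ball -/
structure Mol (Φ : E n → ℝ) : Prop where
  cont : Continuous Φ
  nonneg : ∀ x, 0 ≤ Φ x
  int : Integrable Φ
  one : ∫ x, Φ x = 1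
  dec : ∀ M : ℕ, ∃ C : ℝ, 0 ≤ C ∧ ∀ x, Φ x * (1 + ‖x‖) ^ M ≤ C
  supp : ∀ η, (𝓕 (fun x => (Φ x : ℂ)) : E n → ℂ) η ≠ 0 → ‖η‖ ≤ 1

noncomputable def bmp (n : ℕ) : ContDiffBump (0 : E n) := ⟨1 / 4, 1 / 2, by norm_num, by norm_num⟩

noncomputable def bmc (x : E n) : ℂ := (((bmp n) x : ℝ) : ℂ)

theorem bmc_compact : HasCompactSupport (bmc (n := n)) := (bmp n).hasCompactSupport.comp_left (g := fun r : ℝ => (r : ℂ)) (by simp)

theorem bmc_smooth : ContDiff ℝ ∞ (bmc (n := n)) := Complex.ofRealCLM.contDiff.comp (bmp n).contDiff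

noncomputable def bms (n : ℕ) : 𝓢(E n, ℂ) := bmc_compact.toSchwartzMap bmc_smooth

theorem bms_apply (x : E n) : (bms n) x = bmc x := rfl

theorem bmc_neg (x : E n) : bmc (-x) = bmc x := by unfold bmc; rw [(bmp n).neg]

theorem bmc_ne {x : E n} (h : bmc x ≠ 0) : ‖x‖ ≤ 1 / 2 := by
  have h1 : (bmp n) x ≠ 0 := fun h' => h (by unfold bmc; rw [h']; simp)
  have h2 : x ∈ Function.support (bmp n) := h1
  rw [(bmp n).support_eq] at h2
  have : ‖x‖ < 1 / 2 := by simpa [bmp] using h2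
  exact this.le

noncomputable def ph1 (n : ℕ) : 𝓢(E n, ℂ) := 𝓕 (bms n)

theorem ph1_eq (x : E n) : (ph1 n) x = (𝓕 bmc : E n → ℂ) x := by
  unfold ph1
  rw [fourier_coe]
  rfl

theorem integrable_bmc : Integrable (bmc (n := n)) := (bms n).integrable

theorem ph1_conj (x : E n) : (starRingEnd ℂ) ((ph1 n) x) = (ph1 n) x := by
  rw [ph1_eq]
  have h1 : (𝓕 bmc : E n → ℂ) x = (𝓕 bmc : E n → ℂ) (-x) := by
    rw [Real.fourier_eq, Real.fourier_eq]
    rw [← integral_neg_eq_self]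
    congr 1
    ext v
    simp [bmc_neg]
  rw [h1]
  conv_rhs => rw [← h1]
  rw [Real.fourier_eq, Real.fourier_eq, ← integral_conj]
  congr 1
  ext v
  simp only [Circle.smul_def, smul_eq_mul, map_mul, inner_neg_right, neg_neg]
  have h2 : (starRingEnd ℂ) (bmc v) = bmc v := by unfold bmc; exact Complex.conj_ofReal _
  rw [h2]
  congr 1
  rw [← Circle.coe_inv_eq_conj, ← AddChar.map_neg_eq_inv]

theorem ph1_sq (x : E n) : ((‖(ph1 n) x‖ ^ 2 : ℝ) : ℂ) = (ph1 n) x * (ph1 n) x := by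
  have h := Complex.mul_conj ((ph1 n) x)
  rw [ph1_conj] at h
  rw [h, Complex.normSq_eq_norm_sq]

noncomputable def mc (n : ℕ) : ℝ := ∫ x, ‖(ph1 n) x‖ ^ 2

theorem integrable_ph1_sq : Integrable fun x => ‖(ph1 n) x‖ ^ 2 := by
  have := (ph1 n).memLp 2 (μ := volume)
  exact this.integrable_norm_pow (by norm_num)

theorem bmp_zero : (bmp n) 0 = 1 := (bmp n).one_of_mem_closedBall (by simp [bmp])

theorem mc_pos : 0 < (mc n) := by
  unfold mc
  rw [integral_pos_iff_support_of_nonneg (fun x => by positivity) integrable_ph1_sq]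
  have h1 : (Function.support fun x => ‖(ph1 n) x‖ ^ 2) = {x | (ph1 n) x ≠ 0} := by
    ext x; simp
  rw [h1]
  have ho : IsOpen {x | (ph1 n) x ≠ 0} := isOpen_ne_fun (ph1 n).continuous continuous_const
  refine ho.measure_pos _ ?_
  by_contra hne
  rw [Set.not_nonempty_iff_eq_empty] at hne
  have h0 : ∀ x, (ph1 n) x = 0 := fun x => by
    by_contra hx
    have : x ∈ ({x | (ph1 n) x ≠ 0} : Set (E n)) := hx
    rw [hne] at this
    exact this
  have h2 : (ph1 n) = 0 := by ext x; simpa using h0 x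
  have h3 : (bms n) = 0 := by
    have h4 : 𝓕⁻ (𝓕 (bms n)) = (bms n) := fourierInv_fourier_eq (bms n)
    rw [← h4]
    change 𝓕⁻ (ph1 n) = 0
    rw [h2]
    simp
  have h5 : (bms n) 0 = 0 := by rw [h3]; rfl
  rw [bms_apply] at h5
  unfold bmc at h5
  rw [bmp_zero] at h5
  simp at h5

/-- the mollifier -/
noncomputable def mol (x : E n) : ℝ := ‖(ph1 n) x‖ ^ 2 / (mc n)

theorem conv_ne {f g : E n → ℂ} {a b : ℝ} (hf : ∀ x, f x ≠ 0 → ‖x‖ ≤ a) (hg : ∀ x, g x ≠ 0 → ‖x‖ ≤ b) (x : E n)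
    (h : (f ⋆[ContinuousLinearMap.mul ℂ ℂ] g) x ≠ 0) : ‖x‖ ≤ a + b := by
  by_contra hx
  apply h
  rw [convolution_def]
  rw [← integral_zero (E n) ℂ (μ := volume)]
  congr 1
  ext t
  by_cases h1 : f t = 0
  · simp [h1]
  by_cases h2 : g (x - t) = 0
  · simp [h2]
  exfalso
  apply hx
  calc ‖x‖ = ‖t + (x - t)‖ := by congr 1; abel
    _ ≤ ‖t‖ + ‖x - t‖ := norm_add_le _ _
    _ ≤ a + b := add_le_add (hf t h1) (hg _ h2)

theorem mol_mol : Mol (mol (n := n)) where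
  cont := by
    unfold mol
    exact ((ph1 n).continuous.norm.pow 2).div_const _
  nonneg := fun x => div_nonneg (by positivity) mc_pos.le
  int := integrable_ph1_sq.div_const _
  one := by
    unfold mol
    rw [integral_div]
    exact div_self mc_pos.ne'
  dec := by
    intro M
    obtain ⟨C, hC0, hC⟩ : ∃ C : ℝ, 0 ≤ C ∧ ∀ x, (1 + ‖x‖) ^ M * ‖(ph1 n) x‖ ≤ C := by
      have h := (ph1 n).one_add_le_sup_seminorm_apply (𝕜 := ℝ) (m := (M, 0)) (k := M) (n := 0) le_rfl le_rfl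
      have h' : ∀ x, (1 + ‖x‖) ^ M * ‖(ph1 n) x‖ ≤ 2 ^ (M, 0).1 * ((Finset.Iic (M, 0)).sup fun m => SchwartzMap.seminorm ℝ m.1 m.2) (ph1 n) := by
        intro x
        have := h x
        rwa [norm_iteratedFDeriv_zero] at this
      exact ⟨_, le_trans (by positivity) (h' 0), h'⟩
    obtain ⟨C2, hC20, hC2⟩ : ∃ C : ℝ, 0 ≤ C ∧ ∀ x, ‖(ph1 n) x‖ ≤ C := by
      have h := (ph1 n).one_add_le_sup_seminorm_apply (𝕜 := ℝ) (m := (0, 0)) (k := 0) (n := 0) le_rfl le_rfl
      have h' : ∀ x, ‖(ph1 n) x‖ ≤ 2 ^ (0, 0).1 * ((Finset.Iic (0, 0)).sup fun m => SchwartzMap.seminorm ℝ m.1 m.2) (ph1 n) := by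
        intro x
        have := h x
        rwa [norm_iteratedFDeriv_zero, pow_zero, one_mul] at this
      exact ⟨_, le_trans (by positivity) (h' 0), h'⟩
    refine ⟨C * C2 / (mc n), div_nonneg (mul_nonneg hC0 hC20) mc_pos.le, fun x => ?_⟩
    unfold mol
    rw [div_mul_eq_mul_div]
    refine div_le_div_of_nonneg_right ?_ mc_pos.le
    · calc ‖(ph1 n) x‖ ^ 2 * (1 + ‖x‖) ^ M = ((1 + ‖x‖) ^ M * ‖(ph1 n) x‖) * ‖(ph1 n) x‖ := by ring
        _ ≤ C * C2 := mul_le_mul (hC x) (hC2 x) (norm_nonneg _) hC0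
  supp := by
    intro η h
    have h1 : (fun x : E n => ((mol x : ℝ) : ℂ)) = fun x => ((mc n) : ℂ)⁻¹ • ((ph1 n) x * (ph1 n) x) := by
      ext x
      rw [← ph1_sq]
      unfold mol
      push_cast
      rw [smul_eq_mul]
      ring
    have h2 : ∀ x, ((ph1 n) x * (ph1 n) x) = (𝓕 (bmc ⋆[ContinuousLinearMap.mul ℂ ℂ] bmc) : E n → ℂ) x := by
      intro x
      rw [Real.fourier_mul_convolution_eq integrable_bmc integrable_bmc, ← ph1_eq]
    have h3 : (𝓕⁻ (fun x => (ph1 n) x * (ph1 n) x) : E n → ℂ) = (bmc ⋆[ContinuousLinearMap.mul ℂ ℂ] bmc) := by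
      have h4 : (fun x => (ph1 n) x * (ph1 n) x) = (𝓕 (bmc ⋆[ContinuousLinearMap.mul ℂ ℂ] bmc) : E n → ℂ) := funext h2
      rw [h4]
      refine Continuous.fourierInv_fourier_eq ?_ ?_ ?_
      · exact bmc_compact.continuous_convolution_left _ bmc_smooth.continuous integrable_bmc.locallyIntegrable
      · exact integrable_bmc.integrable_convolution _ integrable_bmc
      · rw [← h4]
        have := integrable_ph1_sq (n := n)
        have h5 : (fun x => (ph1 n) x * (ph1 n) x) = fun x => ((‖(ph1 n) x‖ ^ 2 : ℝ) : ℂ) := funext fun x => (ph1_sq x).symm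
        rw [h5]
        exact this.ofReal
    have h6 : (𝓕 (fun x : E n => ((mol x : ℝ) : ℂ)) : E n → ℂ) η = ((mc n) : ℂ)⁻¹ * (bmc ⋆[ContinuousLinearMap.mul ℂ ℂ] bmc) (-η) := by
      rw [h1, ← h3, Real.fourierInv_eq_fourier_neg, neg_neg, Real.fourier_eq, Real.fourier_eq, ← smul_eq_mul, ← integral_smul]
      congr 1
      ext v
      rw [smul_comm]
    rw [h6] at h
    have h7 := conv_ne (fun x => bmc_ne) (fun x => bmc_ne) (-η) (right_ne_zero_of_mul h)
    rw [norm_neg] at h7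
    linarith

end Vale.Agent.P076N.A
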