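import Vale.Agent.P076.ASM.Num

/-! # P076N / A : numerical lemmas of the final step -/

set_option linter.all false

namespace Vale.Agent.P076N.A

open Vale.Agent.P076.ASM (rp_le)

theorem num_rest {L R κ δ s : ℝ} {K n : ℕ} (hL : 1 ≤ L) (hR : 1 ≤ R) (h1 : R ≤ L ^ 2) (h2 : L ^ 2 ≤ 4 ^ K * R)
    (hκ : 0 < κ) (hδ : n * δ ≤ κ / 2) (hs0 : 0 ≤ s) (hs1 : s ≤ 1) :
    L ^ (2 * s - κ : ℝ) ≤ 4 ^ K * (R ^ s * R ^ (-(n * δ))) := by
  have hL0 : 0 < L := by linarith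
  have hR0 : 0 < R := by linarith
  have e1 : L ^ (2 * s - κ : ℝ) = (L ^ 2) ^ s * (L ^ 2) ^ (-(κ / 2)) := by
    rw [← Real.rpow_natCast L 2, ← Real.rpow_mul hL0.le, ← Real.rpow_mul hL0.le, ← Real.rpow_add hL0]
    congr 1
    push_cast
    ring
  have e2 : (L ^ 2) ^ s ≤ 4 ^ K * R ^ s := by
    calc (L ^ 2) ^ s ≤ (4 ^ K * R) ^ s := Real.rpow_le_rpow (by positivity) h2 hs0
      _ = (4 ^ K : ℝ) ^ s * R ^ s := Real.mul_rpow (by positivity) hR0.le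
      _ ≤ 4 ^ K * R ^ s := by
          refine mul_le_mul_of_nonneg_right ?_ (by positivity)
          calc (4 ^ K : ℝ) ^ s ≤ (4 ^ K : ℝ) ^ (1 : ℝ) := rp_le (one_le_pow₀ (by norm_num)) hs1
            _ = 4 ^ K := Real.rpow_one _
  have e3 : (L ^ 2) ^ (-(κ / 2)) ≤ R ^ (-(n * δ)) := by
    calc (L ^ 2) ^ (-(κ / 2)) ≤ R ^ (-(κ / 2)) := Real.rpow_le_rpow_of_nonpos hR0 h1 (by linarith)
      _ ≤ R ^ (-(n * δ)) := rp_le hR (by linarith)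
  rw [e1]
  calc (L ^ 2) ^ s * (L ^ 2) ^ (-(κ / 2)) ≤ (4 ^ K * R ^ s) * R ^ (-(n * δ)) :=
        mul_le_mul e2 e3 (by positivity) (by positivity)
    _ = _ := by ring

theorem num_gain {a R δ : ℝ} {n : ℕ} (ha : 1 ≤ a) (hR : 1 ≤ R) (hδ : 0 < δ) : R ^ (-(n * δ)) ≤ (a / R ^ n) ^ δ := by
  have hR0 : 0 < R := by linarith
  have e1 : R ^ (-(n * δ)) = (1 / R ^ n) ^ δ := by
    rw [one_div, ← Real.rpow_natCast R n, ← Real.rpow_neg hR0.le, ← Real.rpow_mul hR0.le]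
    congr 1
    ring
  rw [e1]
  exact Real.rpow_le_rpow (by positivity) (div_le_div_of_nonneg_right ha (by positivity)) hδ.le

theorem num_mono {x y z δ δT : ℝ} (hx : 0 ≤ x) (hxy : x ≤ y) (hy : 0 < y) (hz : 1 ≤ z) (hyz : y ≤ z) (hδ : 0 < δ)
    (hδT : δ ≤ δT) : x ^ δT ≤ z ^ δT * y ^ δ := by
  calc x ^ δT ≤ y ^ δT := Real.rpow_le_rpow hx hxy (by linarith)
    _ = y ^ (δT - δ) * y ^ δ := by rw [← Real.rpow_add hy]; congr 1; ring
    _ ≤ z ^ δT * y ^ δ := by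
        refine mul_le_mul_of_nonneg_right ?_ (by positivity)
        calc y ^ (δT - δ) ≤ z ^ (δT - δ) := Real.rpow_le_rpow hy.le hyz (by linarith)
          _ ≤ z ^ δT := rp_le hz (by linarith)

theorem num_bad {L R c c' N : ℝ} {n : ℕ} (hn : 1 ≤ n) (hL : 1 ≤ L) (hR : 0 ≤ R) (h1 : R ≤ L ^ 2) (hc : 0 < c)
    (hc' : c ≤ c' / 64) (hc2 : c' ≤ 1 / 2) (hN0 : 0 ≤ N) (hN : N ≤ 2 * L ^ c) :
    N * (R ^ (n - 1) * (5 * (L ^ (2 * c) * L) + L ^ (-(c' / 4)) * R + 1)) +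
      N ^ 2 * (R ^ (n - 1) * (10 * (L ^ (2 * c) * L) / (L ^ (-(c' / 4)) * L ^ (c' - 1)) + 1)) ≤
      58 * ((L ^ 2) ^ n * L ^ (-(c' / 8))) := by
  obtain ⟨d, rfl⟩ : ∃ d, n = d + 1 := ⟨n - 1, by omega⟩
  rw [Nat.add_sub_cancel]
  have hL0 : 0 < L := by linarith
  have e2 : (L ^ 2 : ℝ) = L ^ (2:ℝ) := by rw [← Real.rpow_natCast]; norm_num
  have a1 : R ^ d ≤ (L ^ 2) ^ d := pow_le_pow_left₀ hR h1 d
  have hpL : L ^ (2 * c) * L = L ^ (2 * c + 1) := by rw [Real.rpow_add hL0, Real.rpow_one]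
  have a2 : 5 * (L ^ (2 * c) * L) + L ^ (-(c' / 4)) * R + 1 ≤ 7 * L ^ (2 - c' / 4) := by
    have b1 : L ^ (2 * c) * L ≤ L ^ (2 - c' / 4) := by rw [hpL]; exact rp_le hL (by linarith)
    have b2 : L ^ (-(c' / 4)) * R ≤ L ^ (2 - c' / 4) := by
      calc L ^ (-(c' / 4)) * R ≤ L ^ (-(c' / 4)) * L ^ (2:ℝ) := by
            rw [← e2]; exact mul_le_mul_of_nonneg_left h1 (by positivity)
        _ = L ^ (2 - c' / 4) := by rw [← Real.rpow_add hL0]; congr 1; ring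
    have b3 : 1 ≤ L ^ (2 - c' / 4) := Real.one_le_rpow hL (by linarith)
    linarith
  have hdiv : 10 * (L ^ (2 * c) * L) / (L ^ (-(c' / 4)) * L ^ (c' - 1)) = 10 * L ^ (2 + 2 * c - 3 * c' / 4) := by
    rw [hpL, ← Real.rpow_add hL0, mul_div_assoc, ← Real.rpow_sub hL0]
    congr 2
    ring
  have a3 : 10 * (L ^ (2 * c) * L) / (L ^ (-(c' / 4)) * L ^ (c' - 1)) + 1 ≤ 11 * L ^ (2 + 2 * c - 3 * c' / 4) := by
    rw [hdiv]
    have b3 : 1 ≤ L ^ (2 + 2 * c - 3 * c' / 4) := Real.one_le_rpow hL (by linarith)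
    linarith
  have f : ∀ a : ℝ, a ≤ 2 - c' / 8 → (L ^ 2) ^ d * L ^ a ≤ (L ^ 2) ^ (d + 1) * L ^ (-(c' / 8)) := fun a ha => by
    rw [pow_succ (L ^ 2) d, mul_assoc]
    refine mul_le_mul_of_nonneg_left ?_ (by positivity)
    rw [e2, ← Real.rpow_add hL0]
    exact rp_le hL (by linarith)
  have t1 := mul_le_mul hN (mul_le_mul a1 a2 (by positivity) (by positivity)) (by positivity) (by positivity)
  have t2 := mul_le_mul (pow_le_pow_left₀ hN0 hN 2) (mul_le_mul a1 a3 (by positivity) (by positivity))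
    (by positivity) (by positivity)
  have f1 := f (c + (2 - c' / 4)) (by linarith)
  have f2 := f (c + c + (2 + 2 * c - 3 * c' / 4)) (by linarith)
  rw [Real.rpow_add hL0] at f1
  rw [Real.rpow_add hL0, Real.rpow_add hL0 c c] at f2
  linarith

theorem num_badgain {L R c c' δ δ' δT N B Z : ℝ} {K n : ℕ} (hL : 1 ≤ L) (hR : 1 ≤ R) (h1 : R ≤ L ^ 2)
    (h2 : L ^ 2 ≤ 4 ^ K * R) (hc'0 : 0 < c') (hδ'0 : 0 < δ') (hcd : c = c' * δ' / 64) (hδ'T : δ' ≤ δT)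
    (hδ : n * δ ≤ c' * δ' / 32) (hN0 : 0 ≤ N) (hN : N ≤ 2 * L ^ c) (hB0 : 0 ≤ B) (hZ : 0 ≤ Z)
    (hB : B ≤ Z * ((L ^ 2) ^ n * L ^ (-(c' / 8)))) :
    (2 * N) ^ 2 * (B / R ^ n) ^ δT ≤ 16 * (Z * (4 ^ K) ^ n) ^ δT * R ^ (-(n * δ)) := by
  have hL0 : 0 < L := by linarith
  have hR0 : 0 < R := by linarith
  have hδT0 : 0 < δT := by linarith
  have e1 : B / R ^ n ≤ (Z * (4 ^ K) ^ n) * L ^ (-(c' / 8)) := by
    rw [div_le_iff₀ (by positivity)]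
    have e3 : (L ^ 2) ^ n ≤ (4 ^ K) ^ n * R ^ n := by
      rw [← mul_pow]
      exact pow_le_pow_left₀ (by positivity) h2 n
    calc B ≤ Z * ((L ^ 2) ^ n * L ^ (-(c' / 8))) := hB
      _ ≤ Z * (((4 ^ K) ^ n * R ^ n) * L ^ (-(c' / 8))) := by gcongr
      _ = _ := by ring
  have e4 : (B / R ^ n) ^ δT ≤ (Z * (4 ^ K) ^ n) ^ δT * L ^ (-(c' / 8) * δ') := by
    calc (B / R ^ n) ^ δT ≤ ((Z * (4 ^ K) ^ n) * L ^ (-(c' / 8))) ^ δT := Real.rpow_le_rpow (by positivity) e1 hδT0.le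
      _ = (Z * (4 ^ K) ^ n) ^ δT * (L ^ (-(c' / 8))) ^ δT := Real.mul_rpow (by positivity) (by positivity)
      _ = (Z * (4 ^ K) ^ n) ^ δT * L ^ (-(c' / 8) * δT) := by rw [← Real.rpow_mul hL0.le]
      _ ≤ (Z * (4 ^ K) ^ n) ^ δT * L ^ (-(c' / 8) * δ') := by
          refine mul_le_mul_of_nonneg_left (rp_le hL ?_) (by positivity)
          nlinarith
  have e5 : (2 * N) ^ 2 ≤ 16 * L ^ (2 * c) := by
    calc (2 * N) ^ 2 ≤ (2 * (2 * L ^ c)) ^ 2 := pow_le_pow_left₀ (by positivity) (by linarith) 2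
      _ = 16 * (L ^ c * L ^ c) := by ring
      _ = 16 * L ^ (2 * c) := by rw [← Real.rpow_add hL0]; congr 2; ring
  calc (2 * N) ^ 2 * (B / R ^ n) ^ δT ≤ (16 * L ^ (2 * c)) * ((Z * (4 ^ K) ^ n) ^ δT * L ^ (-(c' / 8) * δ')) :=
        mul_le_mul e5 e4 (by positivity) (by positivity)
    _ = 16 * (Z * (4 ^ K) ^ n) ^ δT * (L ^ (2 * c) * L ^ (-(c' / 8) * δ')) := by ring
    _ ≤ 16 * (Z * (4 ^ K) ^ n) ^ δT * R ^ (-(n * δ)) := by
        refine mul_le_mul_of_nonneg_left ?_ (by positivity)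
        rw [← Real.rpow_add hL0]
        have e6 : L ^ (2 * c + -(c' / 8) * δ') = (L ^ 2) ^ (-(3 * (c' * δ') / 64)) := by
          rw [← Real.rpow_natCast L 2, ← Real.rpow_mul hL0.le]
          congr 1
          rw [hcd]
          push_cast
          ring
        rw [e6]
        have hcδ : 0 < c' * δ' := by positivity
        calc (L ^ 2) ^ (-(3 * (c' * δ') / 64)) ≤ R ^ (-(3 * (c' * δ') / 64)) :=
              Real.rpow_le_rpow_of_nonpos hR0 h1 (by linarith)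
          _ ≤ R ^ (-(n * δ)) := rp_le hR (by linarith)

/-- the constant in the width of the slabs -/
noncomputable def cS (n : ℕ) : ℝ := (4 * n + 1) * (2 * n + 5)

theorem num_strip1 {L R c cT : ℝ} {n : ℕ} (hL : 1 ≤ L) (hR : 1 ≤ R) (h1 : R ≤ L ^ 2) (hc : c < 1 / 2)
    (hcT : cS n ≤ R ^ (cT / 2)) (hcc : c ≤ cT / 2) : (2 * n + 1) * L ^ (2 * c) / L ≤ R ^ (cT - 1 / 2) := by
  have hL0 : 0 < L := by linarith
  have hR0 : 0 < R := by linarith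
  have hn : (0 : ℝ) ≤ n := Nat.cast_nonneg n
  have e1 : (2 * n + 1) * L ^ (2 * c) / L = (2 * n + 1) * (L ^ 2) ^ (c - 1 / 2) := by
    rw [← Real.rpow_natCast L 2, ← Real.rpow_mul hL0.le, mul_div_assoc]
    congr 1
    have : L ^ (2 * c) / L = L ^ (2 * c) / L ^ (1:ℝ) := by rw [Real.rpow_one]
    rw [this, ← Real.rpow_sub hL0]
    congr 1
    push_cast
    ring
  rw [e1]
  unfold cS at hcT
  calc (2 * n + 1) * (L ^ 2) ^ (c - 1 / 2) ≤ (2 * n + 1) * R ^ (c - 1 / 2) :=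
        mul_le_mul_of_nonneg_left (Real.rpow_le_rpow_of_nonpos hR0 h1 (by linarith)) (by positivity)
    _ ≤ R ^ (cT / 2) * R ^ (c - 1 / 2) := mul_le_mul_of_nonneg_right (by nlinarith) (by positivity)
    _ = R ^ (cT / 2 + (c - 1 / 2)) := by rw [Real.rpow_add hR0]
    _ ≤ R ^ (cT - 1 / 2) := rp_le hR (by linarith)

theorem num_strip2 {L R c c' cT N V : ℝ} {n : ℕ} (hL : 1 ≤ L) (hR : 1 ≤ R) (h1 : R ≤ L ^ 2) (hc0 : 0 < c)
    (hcc : c ≤ c' / 64) (hc' : c' ≤ 1 / 2) (hcT : cS n ≤ R ^ (cT / 2)) (hcT2 : c' ≤ cT / 2) (hV : V ≤ N)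
    (hN : N ≤ 2 * L ^ c) :
    (4 * n + 1) * ((2 * n + 1) * L ^ (2 * c) / (L * L ^ (-(c' / 4))) + 2 * (V * L ^ (c' - 1))) ≤ R ^ (cT - 1 / 2) := by
  have hL0 : 0 < L := by linarith
  have hR0 : 0 < R := by linarith
  have hn : (0 : ℝ) ≤ n := Nat.cast_nonneg n
  have e1 : (2 * n + 1) * L ^ (2 * c) / (L * L ^ (-(c' / 4))) ≤ (2 * n + 1) * L ^ (c + c' - 1) := by
    have : L * L ^ (-(c' / 4)) = L ^ (1 - c' / 4) := by
      have : L * L ^ (-(c' / 4)) = L ^ (1:ℝ) * L ^ (-(c' / 4)) := by rw [Real.rpow_one]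
      rw [this, ← Real.rpow_add hL0]; congr 1
    rw [this, mul_div_assoc, ← Real.rpow_sub hL0]
    exact mul_le_mul_of_nonneg_left (rp_le hL (by linarith)) (by positivity)
  have e2 : V * L ^ (c' - 1) ≤ 2 * L ^ (c + c' - 1) := by
    calc V * L ^ (c' - 1) ≤ (2 * L ^ c) * L ^ (c' - 1) := mul_le_mul_of_nonneg_right (hV.trans hN) (by positivity)
      _ = 2 * L ^ (c + c' - 1) := by rw [mul_assoc, ← Real.rpow_add hL0]; congr 2; ring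
  have e3 : (4 * n + 1) * ((2 * n + 1) * L ^ (2 * c) / (L * L ^ (-(c' / 4))) + 2 * (V * L ^ (c' - 1))) ≤
      cS n * L ^ (c + c' - 1) := by
    unfold cS
    rw [mul_assoc]
    exact mul_le_mul_of_nonneg_left (by linarith) (by positivity)
  refine e3.trans ?_
  have e4 : L ^ (c + c' - 1) = (L ^ 2) ^ ((c + c') / 2 - 1 / 2) := by
    rw [← Real.rpow_natCast L 2, ← Real.rpow_mul hL0.le]
    congr 1
    push_cast
    ring
  rw [e4]
  have hS : 0 ≤ cS n := by unfold cS; positivity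
  calc cS n * (L ^ 2) ^ ((c + c') / 2 - 1 / 2) ≤ cS n * R ^ ((c + c') / 2 - 1 / 2) :=
        mul_le_mul_of_nonneg_left (Real.rpow_le_rpow_of_nonpos hR0 h1 (by linarith)) hS
    _ ≤ R ^ (cT / 2) * R ^ ((c + c') / 2 - 1 / 2) := mul_le_mul_of_nonneg_right hcT (by positivity)
    _ = R ^ (cT / 2 + ((c + c') / 2 - 1 / 2)) := by rw [Real.rpow_add hR0]
    _ ≤ R ^ (cT - 1 / 2) := rp_le hR (by linarith)

theorem num_loc {L R c N Cl M0 α q : ℝ} (hL : 1 ≤ L) (hR : 1 ≤ R) (h1 : R ≤ L ^ 2) (hc : 2 * c ≤ 1) (hN0 : 0 ≤ N)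
    (hN : N ≤ 2 * L ^ c) (hCl : 0 ≤ Cl) (hCl2 : 64 * Cl ≤ L) (hM0 : 0 ≤ M0) (hα : 0 ≤ α) (hq : 0 ≤ q)
    (hα2 : R ^ (-q) * M0 ≤ α ^ 2) : N * Real.sqrt (Cl * L ^ (-(2 * q + 2)) * M0) ≤ α / 4 := by
  have hL0 : 0 < L := by linarith
  have hR0 : 0 < R := by linarith
  refine abs_le_of_sq_le_sq' ?_ (by positivity) |>.2
  rw [mul_pow, Real.sq_sqrt (by positivity)]
  have e1 : N ^ 2 ≤ 4 * L := by
    calc N ^ 2 ≤ (2 * L ^ c) ^ 2 := pow_le_pow_left₀ hN0 hN 2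
      _ = 4 * L ^ (2 * c) := by rw [mul_pow, ← Real.rpow_natCast (L ^ c) 2, ← Real.rpow_mul hL0.le]; push_cast; ring_nf
      _ ≤ 4 * L := by
          refine mul_le_mul_of_nonneg_left ?_ (by norm_num)
          calc L ^ (2 * c) ≤ L ^ (1:ℝ) := rp_le hL hc
            _ = L := Real.rpow_one L
  have e2 : L ^ (-(2 * q + 2)) * L ^ 2 = (L ^ 2) ^ (-q) := by
    rw [← Real.rpow_natCast L 2, ← Real.rpow_mul hL0.le, ← Real.rpow_add hL0]
    congr 1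
    push_cast
    ring
  have e3 : (L ^ 2) ^ (-q) ≤ R ^ (-q) := Real.rpow_le_rpow_of_nonpos hR0 h1 (by linarith)
  have e4 : N ^ 2 * (Cl * L ^ (-(2 * q + 2)) * M0) ≤ (4 * L) * (L / 64 * L ^ (-(2 * q + 2)) * M0) := by
    refine mul_le_mul e1 ?_ (by positivity) (by positivity)
    refine mul_le_mul_of_nonneg_right (mul_le_mul_of_nonneg_right (by linarith) (by positivity)) hM0
  have e5 : (4 * L) * (L / 64 * L ^ (-(2 * q + 2)) * M0) = (L ^ (-(2 * q + 2)) * L ^ 2) * M0 / 16 := by ring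
  rw [e5, e2] at e4
  calc N ^ 2 * (Cl * L ^ (-(2 * q + 2)) * M0) ≤ (L ^ 2) ^ (-q) * M0 / 16 := e4
    _ ≤ R ^ (-q) * M0 / 16 := by
        refine div_le_div_of_nonneg_right (mul_le_mul_of_nonneg_right e3 hM0) (by norm_num)
    _ ≤ (α / 4) ^ 2 := by rw [div_pow]; linarith

end Vale.Agent.P076N.A
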