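import Vale.Agent.P076N.A.Fin2
import Vale.Agent.P076N.A.Num

/-! # P076N / A : the parts of the main case -/

open MeasureTheory Complex FourierTransform Convolution Set

set_option linter.all false

namespace Vale.Agent.P076N.A

open Vale.Agent.P076

variable {n : ℕ}

/-- the hypotheses on the set of points -/
structure Gr (B R : ℝ) (G : E n → ℂ) (A : Finset (E n × ℝ)) (α : ℝ) : Prop where
  gph : Gph B A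
  pos : ∀ k ∈ A, ‖k.1‖ ≤ R
  t0 : ∀ k ∈ A, 0 ≤ k.2
  tR : ∀ k ∈ A, k.2 ≤ R
  big : ∀ k ∈ A, α ≤ ‖evo G k.1 k.2 0‖

theorem gph_sub {B : ℝ} {A A' : Finset (E n × ℝ)} (h : Gph B A) (hs : A' ⊆ A) : Gph B A' := by
  classical
  intro y
  refine le_trans ?_ (h y)
  exact Nat.cast_le.2 (Finset.card_le_card (by
    intro p hp
    simp only [Finset.mem_filter] at hp ⊢
    exact ⟨hs hp.1, hp.2⟩))

theorem Gr.sub {B R : ℝ} {G : E n → ℂ} {A A' : Finset (E n × ℝ)} {α : ℝ} (h : Gr B R G A α) (hs : A' ⊆ A)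
    {R' α' : ℝ} {G' : E n → ℂ} (hR : R ≤ R') (hb : ∀ k ∈ A', α' ≤ ‖evo G' k.1 k.2 0‖) : Gr B R' G' A' α' :=
  ⟨gph_sub h.gph hs, fun k hk => (h.pos k (hs hk)).trans hR, fun k hk => h.t0 k (hs hk),
    fun k hk => (h.tR k (hs hk)).trans hR, hb⟩

theorem Gr.toBig {B R : ℝ} {G : E n → ℂ} {A : Finset (E n × ℝ)} {α : ℝ} (h : Gr B R G A α) : Big G A α R :=
  fun k hk => ⟨h.t0 k hk, h.tR k hk, h.big k hk⟩

/-- body of `TS` -/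
def TSb (n : ℕ) (B cT CT δT : ℝ) : Prop := ∀ (R : ℝ) (G : E n → ℂ) (A : Finset (E n × ℝ)) (α b : ℝ) (ν : E n), 1 ≤ R → 0 ≤ α →
  Bd 2 G → Gr B R G A α → ‖ν‖ = 1 → (∀ η, G η ≠ 0 → |inner ℝ ν η - b| ≤ R ^ (cT - 1 / 2)) →
    α ^ 2 * A.card ≤ CT * R ^ ((n : ℝ) / (n + 1)) * ((A.card : ℝ) / R ^ n) ^ δT * ∫ η, ‖G η‖ ^ 2

/-- body of `NS` -/
def NSb (n : ℕ) (B c κN C' L₀ : ℝ) (K : ℕ) : Prop := ∀ (N : ℕ) (L : ℝ) (T : Finset (Fin n → ℤ)) (H : (Fin n → ℤ) → E n → ℂ)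
  (Q α : ℝ) (A : Finset (E n × ℝ)), L = 2 ^ (K * N) → L₀ ≤ L → Fam L T H → ∑ τ ∈ T, ∫ η, ‖H τ η‖ ^ 2 ≤ Q →
  (∀ (e : E n) (v b : ℝ), ‖e‖ = 1 → plm (L ^ c) L e v b T H ≤ L ^ (-c) * Q) → 0 ≤ α →
    Gr B (L ^ 2) (fun η => ∑ τ ∈ T, H τ η) A α →
    α ^ 2 * A.card ≤ C' * L ^ (2 * ((n : ℝ) / (n + 1)) - κN : ℝ) * Q

theorem s_nonneg (n : ℕ) : 0 ≤ (n : ℝ) / (n + 1) := by positivity

theorem s_le_one (n : ℕ) : (n : ℝ) / (n + 1) ≤ 1 := by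
  rw [div_le_one (by positivity)]; linarith

/-- the context of one application -/
structure Ctx (L c c' δ' N0 : ℝ) (R : ℝ) (K : ℕ) : Prop where
  hL : 1 ≤ L
  hR : 1 ≤ R
  hn1 : R ≤ L ^ 2
  hn2 : L ^ 2 ≤ 4 ^ K * R
  hc'0 : 0 < c'
  hc'1 : c' ≤ 1 / 2
  hδ'0 : 0 < δ'
  hδ'1 : δ' ≤ 1
  hcd : c = c' * δ' / 64
  hN0 : 0 ≤ N0
  hN : N0 ≤ 2 * L ^ c

theorem Ctx.c0 {L c c' δ' N0 R : ℝ} {K : ℕ} (h : Ctx L c c' δ' N0 R K) : 0 < c := by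
  rw [h.hcd]; have := h.hc'0; have := h.hδ'0; positivity

theorem Ctx.cc {L c c' δ' N0 R : ℝ} {K : ℕ} (h : Ctx L c c' δ' N0 R K) : c ≤ c' / 64 := by
  rw [h.hcd]; have := h.hc'0; have := h.hδ'1; nlinarith

/-- (a) the rest -/
theorem part1 {B c κN C' L₀ Cp δ R X M0 α L : ℝ} {K m0 : ℕ} (hC' : 0 ≤ C') (hCp : 0 ≤ Cp) (hκN : 0 < κN) (hδ2 : n * δ ≤ κN / 2)
    (NS : NSb n B c κN C' L₀ K) (hLdef : L = 2 ^ (K * m0)) (hL₀ : L₀ ≤ L) (hL : 1 ≤ L) (hR : 1 ≤ R) (hn1 : R ≤ L ^ 2) (hn2 : L ^ 2 ≤ 4 ^ K * R)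
    (hgain : R ^ (-(n * δ)) ≤ X) (hM0 : 0 ≤ M0) (hα : 0 ≤ α)
    {G : E n → ℂ} {A Af : Finset (E n × ℝ)} (hGr : Gr B R G A α) {H : (Fin n → ℤ) → E n → ℂ}
    (hAf : Af ⊆ A) (hbig : ∀ k ∈ Af, α / 4 ≤ ‖evo (fun η => ∑ τ ∈ TT n L, H τ η) k.1 k.2 0‖)
    (hfam : Fam L (TT n L) H) (hmassH : ∑ τ ∈ TT n L, ∫ η, ‖H τ η‖ ^ 2 ≤ (1 + Cp) * M0)
    (hplmH : ∀ (e : E n) (v b : ℝ), ‖e‖ = 1 → plm (L ^ c) L e v b (TT n L) H ≤ L ^ (-c) * ((1 + Cp) * M0)) :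
    α ^ 2 * Af.card ≤ 16 * (C' * 4 ^ K * (1 + Cp)) * (R ^ ((n : ℝ) / (n + 1)) * X * M0) := by
  have hR0 : 0 < R := by linarith
  have hR23 : 0 < R ^ ((n : ℝ) / (n + 1)) := Real.rpow_pos_of_pos hR0 _
  have h1 := NS m0 L (TT n L) H ((1 + Cp) * M0) (α / 4) Af hLdef hL₀ hfam hmassH hplmH (by positivity)
    (hGr.sub hAf hn1 hbig)
  have h2 := num_rest hL hR hn1 hn2 hκN hδ2 (s_nonneg n) (s_le_one n)
  have h3 : L ^ (2 * ((n : ℝ) / (n + 1)) - κN : ℝ) ≤ 4 ^ K * (R ^ ((n : ℝ) / (n + 1)) * X) :=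
    h2.trans (mul_le_mul_of_nonneg_left (mul_le_mul_of_nonneg_left hgain hR23.le) (by positivity))
  have h4 : α ^ 2 * Af.card = 16 * ((α / 4) ^ 2 * Af.card) := by ring
  rw [h4]
  have hQ0 : 0 ≤ (1 + Cp) * M0 := by positivity
  calc 16 * ((α / 4) ^ 2 * Af.card) ≤ 16 * (C' * L ^ (2 * ((n : ℝ) / (n + 1)) - κN : ℝ) * ((1 + Cp) * M0)) := by linarith
    _ ≤ 16 * (C' * (4 ^ K * (R ^ ((n : ℝ) / (n + 1)) * X)) * ((1 + Cp) * M0)) := by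
        refine mul_le_mul_of_nonneg_left (mul_le_mul_of_nonneg_right (mul_le_mul_of_nonneg_left h3 hC') hQ0) (by norm_num)
    _ = 16 * (C' * 4 ^ K * (1 + Cp)) * (R ^ ((n : ℝ) / (n + 1)) * X * M0) := by ring

/-- the plates chosen -/
structure Chosen (p L ρ κ r : ℝ) (N : ℕ) (γ : ℕ → Plt n) (cl : ℕ → ℕ) : Prop where
  ok : ∀ i < N, (γ i).Ok
  mem : ∀ i ∈ VV κ N γ, cl i ∈ VV κ N γ
  dist : ∀ i ∈ VV κ N γ, ‖mv (γ i) - mv (γ (cl i))‖ ≤ (VV κ N γ).card * r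
  sep : ∀ i ∈ VV κ N γ, ∀ j ∈ VV κ N γ, cl i ≠ cl j → r < ‖mv (γ i) - mv (γ j)‖

open Classical in
/-- one cluster -/
theorem part2one {B Z cT CT δT : ℝ} (hCT : 0 ≤ CT) (TS : TSb n B cT CT δT) {c c' δ' δ R X α L ρ : ℝ} {K N : ℕ}
    (hx : Ctx L c c' δ' N R K) (hcT2 : c' ≤ cT / 2) (hR80 : cS n ≤ R ^ (cT / 2)) (hδ0 : 0 < δ) (hδ1 : δ ≤ δT) (hα : 0 ≤ α)
    {G : E n → ℂ} (hG : Bd 1 G) {A Cf : Finset (E n × ℝ)} (hGr : Gr B R G A α) (ha : 0 < (A.card : ℝ))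
    (hX : X = ((A.card : ℝ) / R ^ n) ^ δ) (hZ1 : 1 ≤ Z) (ha15 : (A.card : ℝ) / R ^ n ≤ Z)
    {γ : ℕ → Plt n} {cl : ℕ → ℕ} (hch : Chosen (L ^ (2 * c)) L ρ (L ^ (-(c' / 4))) (L ^ (c' - 1)) N γ cl) {j : ℕ}
    (hj : j ∈ (VV (L ^ (-(c' / 4))) N γ).image cl) (hCf : Cf ⊆ A)
    (hbig : ∀ k ∈ Cf, α / 2 ≤ ‖∑ i ∈ (VV (L ^ (-(c' / 4))) N γ).filter (fun i => cl i = j),
      evo (Hi L (D0 (L ^ (2 * c)) L ρ γ) G i) k.1 k.2 0‖) :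
    α ^ 2 * (Cf.card : ℝ) ≤ 4 * (CT * R ^ ((n : ℝ) / (n + 1)) * (Z ^ δT * X)) *
      ∫ η, ‖∑ i ∈ (VV (L ^ (-(c' / 4))) N γ).filter (fun i => cl i = j), Hi L (D0 (L ^ (2 * c)) L ρ γ) G i η‖ ^ 2 := by
  have hL := hx.hL
  have hL0 : 0 < L := by linarith
  have hR := hx.hR
  have hR0 : 0 < R := by linarith
  have hp1 : 1 ≤ L ^ (2 * c) := Real.one_le_rpow hL (by have := hx.c0; linarith)
  have hκ0 : 0 < L ^ (-(c' / 4)) := Real.rpow_pos_of_pos hL0 _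
  have hr0 : 0 < L ^ (c' - 1) := Real.rpow_pos_of_pos hL0 _
  have hRg : Rgs (Finset.range N) (D0 (L ^ (2 * c)) L ρ γ) := rgs_D0 _ L ρ γ N
  set κ := L ^ (-(c' / 4)) with hκ
  set D := D0 (L ^ (2 * c)) L ρ γ with hD
  have hVS : VV κ N γ ⊆ Finset.range N := Finset.filter_subset _ _
  set Cj := (VV κ N γ).filter (fun i => cl i = j) with hCj
  have hCjS : Cj ⊆ Finset.range N := (Finset.filter_subset _ _).trans hVS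
  have hbd : Bd 2 (fun η => ∑ i ∈ Cj, Hi L D G i η) := Bd.sum _ fun i hi => Hi_bd hL hRg hG (hCjS hi)
  obtain ⟨i1, hi1, hi1j⟩ := Finset.mem_image.1 hj
  have hjV : j ∈ VV κ N γ := by rw [← hi1j]; exact hch.mem i1 hi1
  have hjN : j < N := Finset.mem_range.1 (hVS hjV)
  have hst : ∀ η, (∑ i ∈ Cj, Hi L D G i η) ≠ 0 → |inner ℝ (γ j).e η - (γ j).v / 2| ≤ R ^ (cT - 1 / 2) := by
    intro η hη
    obtain ⟨i, hi, hi0⟩ := Finset.exists_ne_zero_of_sum_ne_zero hη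
    have hiV := (Finset.mem_filter.1 hi).1
    have hij := (Finset.mem_filter.1 hi).2
    have hη2 : ‖η‖ ≤ 2 := (Hi_bd hL hRg hG (hCjS hi)).supp η hi0
    have hd : ‖mv (γ i) - mv (γ j)‖ ≤ (VV κ N γ).card * L ^ (c' - 1) := by rw [← hij]; exact hch.dist i hiV
    have h1 := strip_cl (κ := κ) hL hp1 hκ0 (by positivity : 0 ≤ ((VV κ N γ).card : ℝ) * L ^ (c' - 1))
      (hch.ok i (Finset.mem_range.1 (hVS hiV))).e1 hi0 hη2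
      (Finset.mem_filter.1 hiV).2 (Finset.mem_filter.1 hjV).2 (hch.ok j hjN).v1 hd
    have hVN : ((VV κ N γ).card : ℝ) ≤ N := by
      have := Finset.card_le_card hVS
      rw [Finset.card_range] at this
      exact Nat.cast_le.2 this
    exact h1.trans (num_strip2 hL hR hx.hn1 hx.c0 hx.cc hx.hc'1 hR80 hcT2 hVN hx.hN)
  have hev : ∀ k : E n × ℝ, evo (fun η => ∑ i ∈ Cj, Hi L D G i η) k.1 k.2 0 = ∑ i ∈ Cj, evo (Hi L D G i) k.1 k.2 0 := fun k =>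
    evo_sum Cj (fun i hi => (Hi_bd hL hRg hG (hCjS hi)).integrable) _ _
  have h1 := TS R (fun η => ∑ i ∈ Cj, Hi L D G i η) Cf (α / 2) ((γ j).v / 2) (γ j).e hR (by positivity) hbd
    (hGr.sub hCf le_rfl fun k hk => by rw [hev]; exact hbig k hk) (hch.ok j hjN).e1 hst
  have h2 : ((Cf.card : ℝ) / R ^ n) ^ δT ≤ Z ^ δT * X := by
    rw [hX]
    refine num_mono (by positivity) ?_ (by positivity) hZ1 ha15 hδ0 hδ1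
    refine div_le_div_of_nonneg_right ?_ (by positivity)
    exact Nat.cast_le.2 (Finset.card_le_card hCf)
  have hI : 0 ≤ ∫ η, ‖∑ i ∈ Cj, Hi L D G i η‖ ^ 2 := integral_nonneg fun _ => by positivity
  have h4 : α ^ 2 * (Cf.card : ℝ) = 4 * ((α / 2) ^ 2 * Cf.card) := by ring
  rw [h4, mul_assoc 4]
  refine mul_le_mul_of_nonneg_left (h1.trans ?_) (by norm_num)
  refine mul_le_mul_of_nonneg_right (mul_le_mul_of_nonneg_left h2 (by positivity)) hI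

/-- one exceptional plate -/
theorem part3one {B Z cT CT δT : ℝ} (hCT : 0 ≤ CT) (TS : TSb n B cT CT δT) {c c' δ' δ R X α L ρ : ℝ} {K N : ℕ}
    (hx : Ctx L c c' δ' N R K) (hcT2 : c' ≤ cT / 2) (hR80 : cS n ≤ R ^ (cT / 2)) (hδ'T : δ' ≤ δT) (hδ3 : n * δ ≤ c' * δ' / 32)
    (hα : 0 ≤ α) {G : E n → ℂ} (hG : Bd 1 G) {A Bf : Finset (E n × ℝ)} (hGr : Gr B R G A α)
    (hgain : R ^ (-(n * δ)) ≤ X) {γ : ℕ → Plt n} {i : ℕ} (hi : i < N) (he : ‖(γ i).e‖ = 1) (hBfA : Bf ⊆ A) (hZ : 0 ≤ Z)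
    (hB : (Bf.card : ℝ) ≤ Z * ((L ^ 2) ^ n * L ^ (-(c' / 8))))
    (hbig : ∀ k ∈ Bf, α / (2 * N) ≤ ‖evo (Hi L (D0 (L ^ (2 * c)) L ρ γ) G i) k.1 k.2 0‖) :
    α ^ 2 * (Bf.card : ℝ) ≤ (CT * R ^ ((n : ℝ) / (n + 1)) * (16 * (Z * (4 ^ K) ^ n) ^ δT * X)) *
      ∫ η, ‖Hi L (D0 (L ^ (2 * c)) L ρ γ) G i η‖ ^ 2 := by
  have hL := hx.hL
  have hL0 : 0 < L := by linarith
  have hR := hx.hR
  have hR0 : 0 < R := by linarith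
  have hp1 : 1 ≤ L ^ (2 * c) := Real.one_le_rpow hL (by have := hx.c0; linarith)
  have hRg : Rgs (Finset.range N) (D0 (L ^ (2 * c)) L ρ γ) := rgs_D0 _ L ρ γ N
  set D := D0 (L ^ (2 * c)) L ρ γ with hD
  have hN1 : 0 < (N : ℝ) := Nat.cast_pos.2 (by omega)
  have hcc := hx.cc
  have hc0 := hx.c0
  have hc'1 := hx.hc'1
  have hst : ∀ η, Hi L D G i η ≠ 0 → |inner ℝ (γ i).e η - (γ i).v / 2| ≤ R ^ (cT - 1 / 2) := by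
    intro η hη
    have h1 := strip_i hL hp1 he hη
    exact h1.trans (num_strip1 hL hR hx.hn1 (by linarith) hR80 (by linarith))
  have h1 := TS R (Hi L D G i) Bf (α / (2 * N)) ((γ i).v / 2) (γ i).e hR (by positivity) (Hi_bd hL hRg hG (Finset.mem_range.2 hi))
    (hGr.sub hBfA le_rfl hbig) he hst
  have h2 := num_badgain hL hR hx.hn1 hx.hn2 hx.hc'0 hx.hδ'0 hx.hcd hδ'T hδ3 hx.hN0 hx.hN (Nat.cast_nonneg _) hZ hB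
  have h3 : (2 * (N:ℝ)) ^ 2 * ((Bf.card : ℝ) / R ^ n) ^ δT ≤ 16 * (Z * (4 ^ K) ^ n) ^ δT * X :=
    h2.trans (mul_le_mul_of_nonneg_left hgain (by positivity))
  have hI : 0 ≤ ∫ η, ‖Hi L D G i η‖ ^ 2 := integral_nonneg fun _ => by positivity
  have h4 : α ^ 2 * (Bf.card : ℝ) = (2 * N) ^ 2 * ((α / (2 * N)) ^ 2 * Bf.card) := by
    rw [div_pow]; field_simp
  rw [h4]
  calc (2 * (N:ℝ)) ^ 2 * ((α / (2 * N)) ^ 2 * Bf.card)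
      ≤ (2 * (N:ℝ)) ^ 2 * (CT * R ^ ((n : ℝ) / (n + 1)) * ((Bf.card : ℝ) / R ^ n) ^ δT * ∫ η, ‖Hi L D G i η‖ ^ 2) :=
        mul_le_mul_of_nonneg_left h1 (by positivity)
    _ = (CT * R ^ ((n : ℝ) / (n + 1)) * ((2 * (N:ℝ)) ^ 2 * ((Bf.card : ℝ) / R ^ n) ^ δT)) * ∫ η, ‖Hi L D G i η‖ ^ 2 := by ring
    _ ≤ (CT * R ^ ((n : ℝ) / (n + 1)) * (16 * (Z * (4 ^ K) ^ n) ^ δT * X)) * ∫ η, ‖Hi L D G i η‖ ^ 2 :=
        mul_le_mul_of_nonneg_right (mul_le_mul_of_nonneg_left h3 (by positivity)) hI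

end Vale.Agent.P076N.A
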