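import Vale.Agent.P076N.A.Pl

/-! # P076N / A : tails of the weights, plate masses of the rest -/

open MeasureTheory Complex FourierTransform Convolution Set


set_option linter.all false

namespace Vale.Agent.P076N.A

open Vale.Agent.P076

variable {n : ℕ}

theorem mol_mom (M : ℕ) : Integrable fun u : E n => mol u * (1 + ‖u‖) ^ M := by
  obtain ⟨C, hC0, hC⟩ := (mol_mol (n := n)).dec (M + (n + 1))
  have h1 : Integrable fun u : E n => (1 + ‖u‖) ^ (-((n + 1 : ℕ):ℝ)) := by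
    refine integrable_one_add_norm ?_
    simp
  refine (h1.const_mul C).mono' ?_ ?_
  · exact (mol_mol.cont.mul ((continuous_const.add continuous_norm).pow M)).aestronglyMeasurable
  · refine Filter.Eventually.of_forall fun u => ?_
    have h2 : 0 < 1 + ‖u‖ := by positivity
    rw [Real.norm_of_nonneg (mul_nonneg (mol_mol.nonneg u) (by positivity)), Real.rpow_neg h2.le]
    rw [← div_eq_mul_inv, le_div_iff₀ (by positivity)]
    have h3 := hC u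
    rw [Real.rpow_natCast, mul_assoc, ← pow_add]
    exact h3

/-- tails of the weights -/
theorem W_tail (n M : ℕ) : ∃ C : ℝ, 0 ≤ C ∧ ∀ (L r : ℝ) (B : Set (E n)) (y : E n), 0 < L → 0 ≤ r →
    (∀ z ∈ B, r ≤ ‖y - z‖) → MeasurableSet B → W L B y ≤ C * ((1 + r / L) ^ M)⁻¹ := by
  refine ⟨∫ u : E n, mol u * (1 + ‖u‖) ^ M, integral_nonneg fun u => mul_nonneg (mol_mol.nonneg u) (by positivity), ?_⟩
  intro L r B y hL hr hB hBm
  have hrL : 0 < 1 + r / L := by positivity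
  have hi : Integrable fun z : E n => mL L (y - z) * (1 + ‖L⁻¹ • (y - z)‖) ^ M := by
    have h1 := (((mol_mom M).comp_smul (inv_ne_zero hL.ne')).const_mul (L⁻¹ ^ n)).comp_sub_left y
    refine h1.congr (Filter.Eventually.of_forall fun z => ?_)
    simp only [mL, abs_of_pos hL]
    ring
  have hval : ∫ z : E n, mL L (y - z) * (1 + ‖L⁻¹ • (y - z)‖) ^ M = ∫ u : E n, mol u * (1 + ‖u‖) ^ M := by
    rw [integral_sub_left_eq_self (fun x : E n => mL L x * (1 + ‖L⁻¹ • x‖) ^ M) volume y]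
    have h2 : ∀ x : E n, mL L x * (1 + ‖L⁻¹ • x‖) ^ M = L⁻¹ ^ n * (mol (L⁻¹ • x) * (1 + ‖L⁻¹ • x‖) ^ M) := fun x => by
      unfold mL; rw [abs_of_pos hL]; ring
    simp only [h2]
    rw [integral_const_mul, Measure.integral_comp_smul volume (fun u : E n => mol u * (1 + ‖u‖) ^ M)]
    simp only [finrank_euclideanSpace, Fintype.card_fin, smul_eq_mul]
    rw [abs_of_pos (by positivity), ← mul_assoc, mul_inv_cancel₀ (by positivity), one_mul]
  have hpt : ∀ z ∈ B, mL L (y - z) ≤ ((1 + r / L) ^ M)⁻¹ * (mL L (y - z) * (1 + ‖L⁻¹ • (y - z)‖) ^ M) := by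
    intro z hz
    have h1 : 1 + r / L ≤ 1 + ‖L⁻¹ • (y - z)‖ := by
      rw [norm_smul, Real.norm_of_nonneg (inv_nonneg.2 hL.le), div_eq_inv_mul]
      have := mul_le_mul_of_nonneg_left (hB z hz) (inv_nonneg.2 hL.le)
      linarith
    have h2 : (1 + r / L) ^ M ≤ (1 + ‖L⁻¹ • (y - z)‖) ^ M := pow_le_pow_left₀ hrL.le h1 M
    rw [inv_mul_eq_div, le_div_iff₀ (by positivity)]
    exact mul_le_mul_of_nonneg_left h2 (mL_nonneg _)
  calc W L B y ≤ ∫ z in B, ((1 + r / L) ^ M)⁻¹ * (mL L (y - z) * (1 + ‖L⁻¹ • (y - z)‖) ^ M) := by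
        unfold W
        exact setIntegral_mono_on (integrable_mL_sub hL y).integrableOn (hi.const_mul _).integrableOn hBm hpt
    _ ≤ ∫ z, ((1 + r / L) ^ M)⁻¹ * (mL L (y - z) * (1 + ‖L⁻¹ • (y - z)‖) ^ M) := by
        refine setIntegral_le_integral (hi.const_mul _) (Filter.Eventually.of_forall fun z => ?_)
        exact mul_nonneg (by positivity) (mul_nonneg (mL_nonneg _) (by positivity))
    _ = (∫ u : E n, mol u * (1 + ‖u‖) ^ M) * ((1 + r / L) ^ M)⁻¹ := by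
        rw [integral_const_mul, hval, mul_comm]

theorem TT_bd {L : ℝ} (hL : 1 ≤ L) {τ : Fin n → ℤ} (h : τ ∈ TT n L) (k : Fin n) : |(τ k : ℝ) / L| ≤ 4 := by
  unfold TT at h
  rw [Fintype.mem_piFinset] at h
  have h1 := Finset.mem_Icc.1 (h k)
  have h2 : (⌈2 * L⌉ : ℝ) < 2 * L + 1 := Int.ceil_lt_add_one _
  have h3 : |(τ k : ℝ)| ≤ 2 * L + 2 := by
    rw [abs_le]
    have h4 : (-(⌈2 * L⌉ + 1 : ℤ) : ℝ) ≤ τ k := by exact_mod_cast h1.1
    have h5 : (τ k : ℝ) ≤ ((⌈2 * L⌉ + 1 : ℤ) : ℝ) := by exact_mod_cast h1.2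
    push_cast at h4 h5
    constructor <;> linarith
  rw [abs_div, abs_of_pos (by linarith : 0 < L), div_le_iff₀ (by linarith)]
  linarith

theorem abs_fn_le {e : E n} (he : ‖e‖ = 1) {a : ℝ} {w : E n} (h : ∀ k, |w k| ≤ a) : |inner ℝ e w| ≤ n * a :=
  (abs_nx_le he w).trans (norm_le_coord h)

theorem Pr_neg (p L ρ : ℝ) (e : E n) (v b : ℝ) (τ : Fin n → ℤ) : Pr p L ρ ⟨-e, -v, -b⟩ τ = Pr p L ρ ⟨e, v, b⟩ τ := by
  ext x
  simp only [Pr, mem_setOf_eq, inner_neg_left, neg_div]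
  have e1 : ∀ a b : ℝ, |-a - -b| = |a - b| := fun a b => by rw [← abs_neg]; congr 1; ring
  rw [e1, e1]

/-- **plate masses of the rest** -/
theorem plm_rest (n : ℕ) : ∃ C : ℝ, 0 ≤ C ∧ ∀ (L c lam : ℝ) (G : E n → ℂ) (N : ℕ) (γ : ℕ → Plt n), 1 ≤ L → 0 < c → c ≤ 1 → Bd 1 G →
    0 ≤ lam →
    (∀ γ' : Plt n, γ'.Ok → ms L G (fun τ => Pr (L ^ (2 * c)) L (L ^ (2 + c)) γ' τ \
      ⋃ i ∈ Finset.range N, Pr (L ^ (2 * c)) L (L ^ (2 + c)) (γ i) τ) ≤ lam) →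
    ∀ (e : E n) (v b : ℝ), ‖e‖ = 1 → plm (L ^ c) L e v b (TT n L) (Hr L (Finset.range N) (D0 (L ^ (2 * c)) L (L ^ (2 + c)) γ) G) ≤
      lam + C * L ^ (-(4 * c)) * ∫ η, ‖G η‖ ^ 2 := by
  obtain ⟨C1, hC1, htail⟩ := W_tail n 4
  refine ⟨16 + 16 * C1, by positivity, ?_⟩
  intro L c lam G N γ hL hc hc1 hG hlam hgr e v b he
  have hL0 : 0 < L := by linarith
  set p := L ^ (2 * c) with hp
  set ρ := L ^ (2 + c) with hρ
  set S := Finset.range N with hS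
  set D := D0 p L ρ γ with hD
  have hR : Rgs S D := rgs_D0 p L ρ γ N
  have hLc : 0 < L ^ c := Real.rpow_pos_of_pos hL0 c
  have hLc1 : 1 ≤ L ^ c := Real.one_le_rpow hL hc.le
  have hp1 : p = L ^ c * L ^ c := by rw [hp, two_mul, Real.rpow_add hL0]
  have hρ1 : ρ = L ^ 2 * L ^ c := by rw [hρ, Real.rpow_add hL0]; norm_num
  have hM0 : 0 ≤ ∫ η, ‖G η‖ ^ 2 := integral_nonneg fun _ => by positivity
  -- reduction to `0 ≤ v ≤ 10`
  have hkey : ∀ τ0 ∈ TT n L, |inner ℝ e (toV τ0) / L - v| ≤ L ^ c / L →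
      ms L G (fun τ => Pr p L ρ ⟨e, v, b⟩ τ \ ⋃ i ∈ S, Pr p L ρ (γ i) τ) ≤ lam := by
    intro τ0 hτ0 h0
    have h1 : |inner ℝ e (toV τ0) / L| ≤ n * 4 := by
      rw [div_eq_inv_mul, ← real_inner_smul_right]
      refine abs_fn_le he fun k => ?_
      rw [PiLp.smul_apply, smul_eq_mul, ← div_eq_inv_mul]
      exact TT_bd hL hτ0 k
    have h2 : L ^ c / L ≤ 1 := by
      rw [div_le_one hL0]
      calc L ^ c ≤ L ^ (1:ℝ) := Real.rpow_le_rpow_of_exponent_le hL hc1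
        _ = L := Real.rpow_one L
    have h3 : |v| ≤ 4 * n + 1 := by
      have h4 := abs_sub_abs_le_abs_sub v (inner ℝ e (toV τ0) / L)
      rw [abs_sub_comm] at h4
      linarith
    rcases le_or_gt 0 v with hv | hv
    · exact hgr ⟨e, v, b⟩ ⟨he, hv, (le_abs_self v).trans h3⟩
    · have h5 := hgr ⟨-e, -v, -b⟩ ⟨by rwa [norm_neg], by linarith, (neg_le_abs v).trans h3⟩
      simp only [Pr_neg] at h5
      exact h5
  unfold plm
  set T' := (TT n L).filter (fun τ => |inner ℝ e (toV τ) / L - v| ≤ L ^ c / L) with hT'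
  rcases T'.eq_empty_or_nonempty with he | ⟨τ0, hτ0⟩
  · rw [he, Finset.sum_empty]
    positivity
  have hms := hkey τ0 (Finset.mem_filter.1 hτ0).1 (Finset.mem_filter.1 hτ0).2
  -- the pointwise bound
  have hpt : ∀ τ ∈ T', ∀ y : E n, W L (Dr S D τ) y * ((1 + |inner ℝ e y - b| / (L ^ c * L) + ‖y‖ / L ^ 2) ^ 4)⁻¹ ≤
      W L (Pr p L ρ ⟨e, v, b⟩ τ \ ⋃ i ∈ S, Pr p L ρ (γ i) τ) y + (16 + 16 * C1) * L ^ (-(4 * c)) := by
    intro τ hτ y
    have hst := (Finset.mem_filter.1 hτ).2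
    set wω := ((1 + |inner ℝ e y - b| / (L ^ c * L) + ‖y‖ / L ^ 2) ^ 4)⁻¹ with hwω
    have hwω0 : 0 ≤ wω := by positivity
    have hwω1 : wω ≤ 1 := by
      rw [hwω]
      apply inv_le_one_of_one_le₀
      apply one_le_pow₀
      have : 0 ≤ |inner ℝ e y - b| / (L ^ c * L) := by positivity
      have : 0 ≤ ‖y‖ / L ^ 2 := by positivity
      linarith
    have hmP : MeasurableSet (Pr p L ρ ⟨e, v, b⟩ τ) := measurableSet_Pr p L ρ _ τ
    have hmU : MeasurableSet (⋃ i ∈ S, Pr p L ρ (γ i) τ) := S.measurableSet_biUnion fun i _ => measurableSet_Pr p L ρ (γ i) τ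
    have hsub : Dr S D τ ⊆ (Pr p L ρ ⟨e, v, b⟩ τ \ ⋃ i ∈ S, Pr p L ρ (γ i) τ) ∪ (Pr p L ρ ⟨e, v, b⟩ τ)ᶜ := by
      intro z hz
      unfold Dr at hz
      rw [hD, hS, union_D0] at hz
      by_cases hzP : z ∈ Pr p L ρ ⟨e, v, b⟩ τ
      · exact Or.inl ⟨hzP, hz⟩
      · exact Or.inr hzP
    have h1 : W L (Dr S D τ) y ≤ W L (Pr p L ρ ⟨e, v, b⟩ τ \ ⋃ i ∈ S, Pr p L ρ (γ i) τ) y + W L (Pr p L ρ ⟨e, v, b⟩ τ)ᶜ y :=
      (W_mono hL0 hsub y).trans (W_union_le hL0 (hmP.diff hmU) hmP.compl y)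
    have h2 : W L (Pr p L ρ ⟨e, v, b⟩ τ)ᶜ y * wω ≤ (16 + 16 * C1) * L ^ (-(4 * c)) := by
      have hLm : L ^ (-(4 * c)) = ((L ^ c) ^ 4)⁻¹ := by
        rw [Real.rpow_neg hL0.le, ← Real.rpow_natCast (L ^ c) 4, ← Real.rpow_mul hL0.le]
        norm_num
        ring_nf
      rw [hLm]
      have hsm : ∀ a : ℝ, L ^ c / 2 ≤ a → ((1 + a) ^ 4)⁻¹ ≤ 16 * ((L ^ c) ^ 4)⁻¹ := by
        intro a ha
        have ha1 : 0 < (1 + a) ^ 4 := pow_pos (by linarith) 4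
        rw [← div_eq_mul_inv, le_div_iff₀ (by positivity), inv_mul_le_iff₀ ha1]
        calc (L ^ c) ^ 4 = 16 * (L ^ c / 2) ^ 4 := by ring
          _ ≤ 16 * (1 + a) ^ 4 := by
              refine mul_le_mul_of_nonneg_left (pow_le_pow_left₀ (by positivity) (by linarith) 4) (by norm_num)
          _ = (1 + a) ^ 4 * 16 := by ring
      have hinv : 0 ≤ ((L ^ c) ^ 4)⁻¹ := by positivity
      by_cases hy1 : p * L / 2 < |inner ℝ e y - b|
      · have h3 : wω ≤ 16 * ((L ^ c) ^ 4)⁻¹ := by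
          refine le_trans ?_ (hsm (|inner ℝ e y - b| / (L ^ c * L) + ‖y‖ / L ^ 2) ?_)
          · rw [hwω, ← add_assoc]
          · have h4 : L ^ c / 2 ≤ |inner ℝ e y - b| / (L ^ c * L) := by
              rw [le_div_iff₀ (by positivity)]
              calc L ^ c / 2 * (L ^ c * L) = p * L / 2 := by rw [hp1]; ring
                _ ≤ _ := hy1.le
            have : 0 ≤ ‖y‖ / L ^ 2 := by positivity
            linarith
        have h5 := W_le_one hL0 (Pr p L ρ ⟨e, v, b⟩ τ)ᶜ y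
        calc W L (Pr p L ρ ⟨e, v, b⟩ τ)ᶜ y * wω ≤ 1 * (16 * ((L ^ c) ^ 4)⁻¹) := mul_le_mul h5 h3 hwω0 (by norm_num)
          _ ≤ (16 + 16 * C1) * ((L ^ c) ^ 4)⁻¹ := by
              rw [one_mul]
              exact mul_le_mul_of_nonneg_right (by linarith) hinv
      by_cases hy2 : ρ / 2 < ‖y‖
      · have h3 : wω ≤ 16 * ((L ^ c) ^ 4)⁻¹ := by
          refine le_trans ?_ (hsm (|inner ℝ e y - b| / (L ^ c * L) + ‖y‖ / L ^ 2) ?_)
          · rw [hwω, ← add_assoc]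
          · have h4 : L ^ c / 2 ≤ ‖y‖ / L ^ 2 := by
              rw [le_div_iff₀ (by positivity)]
              calc L ^ c / 2 * L ^ 2 = ρ / 2 := by rw [hρ1]; ring
                _ ≤ _ := hy2.le
            have : 0 ≤ |inner ℝ e y - b| / (L ^ c * L) := by positivity
            linarith
        have h5 := W_le_one hL0 (Pr p L ρ ⟨e, v, b⟩ τ)ᶜ y
        calc W L (Pr p L ρ ⟨e, v, b⟩ τ)ᶜ y * wω ≤ 1 * (16 * ((L ^ c) ^ 4)⁻¹) := mul_le_mul h5 h3 hwω0 (by norm_num)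
          _ ≤ (16 + 16 * C1) * ((L ^ c) ^ 4)⁻¹ := by
              rw [one_mul]
              exact mul_le_mul_of_nonneg_right (by linarith) hinv
      push Not at hy1 hy2
      have h6 : ∀ z ∈ (Pr p L ρ ⟨e, v, b⟩ τ)ᶜ, L ^ c / 2 * L ≤ ‖y - z‖ := by
        intro z hz
        have h7 : p / L ≥ L ^ c / L := by
          refine div_le_div_of_nonneg_right ?_ hL0.le
          rw [hp1]
          nlinarith
        have h8 : p * L < |inner ℝ e z - b| ∨ ρ < ‖z‖ := by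
          by_contra hcon
          push Not at hcon
          exact hz ⟨hst.trans h7, hcon.1, hcon.2⟩
        rcases h8 with h8 | h8
        · have h9 : |inner ℝ e y - inner ℝ e z| ≤ ‖y - z‖ := by rw [← inner_sub_right]; exact abs_nx_le he _
          have h10 : |inner ℝ e z - b| ≤ |inner ℝ e y - inner ℝ e z| + |inner ℝ e y - b| := by
            have := abs_sub_le (inner ℝ e z) (inner ℝ e y) b
            rw [abs_sub_comm (inner ℝ e z) (inner ℝ e y)] at this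
            exact this
          have h11 : |inner ℝ e y - b| ≤ p * L / 2 := hy1
          have h12 : L ^ c / 2 * L ≤ p * L / 2 := by
            rw [hp1]
            have : L ^ c * L ≤ L ^ c * L ^ c * L := by
              refine mul_le_mul_of_nonneg_right ?_ hL0.le
              nlinarith
            linarith
          linarith
        · have h9 : ‖z‖ ≤ ‖y - z‖ + ‖y‖ := by
            have := norm_sub_norm_le z y
            rw [norm_sub_rev] at this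
            linarith
          have h12 : L ^ c / 2 * L ≤ ρ / 2 := by
            rw [hρ1]
            have : L ^ c * L ≤ L ^ 2 * L ^ c := by
              rw [mul_comm]
              refine mul_le_mul_of_nonneg_right ?_ hLc.le
              nlinarith
            linarith
          linarith
      have h13 := htail L (L ^ c / 2 * L) _ y hL0 (by positivity) h6 hmP.compl
      have h14 : L ^ c / 2 * L / L = L ^ c / 2 := by field_simp
      rw [h14] at h13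
      have h15 := hsm (L ^ c / 2) le_rfl
      have hWn := W_nonneg (L := L) (Pr p L ρ ⟨e, v, b⟩ τ)ᶜ y
      calc W L (Pr p L ρ ⟨e, v, b⟩ τ)ᶜ y * wω ≤ W L (Pr p L ρ ⟨e, v, b⟩ τ)ᶜ y * 1 := mul_le_mul_of_nonneg_left hwω1 hWn
        _ ≤ C1 * (16 * ((L ^ c) ^ 4)⁻¹) := by
            rw [mul_one]
            exact h13.trans (mul_le_mul_of_nonneg_left h15 hC1)
        _ ≤ (16 + 16 * C1) * ((L ^ c) ^ 4)⁻¹ := by nlinarith
    calc W L (Dr S D τ) y * wω ≤ (W L (Pr p L ρ ⟨e, v, b⟩ τ \ ⋃ i ∈ S, Pr p L ρ (γ i) τ) y + W L (Pr p L ρ ⟨e, v, b⟩ τ)ᶜ y) * wω :=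
          mul_le_mul_of_nonneg_right h1 hwω0
      _ = W L (Pr p L ρ ⟨e, v, b⟩ τ \ ⋃ i ∈ S, Pr p L ρ (γ i) τ) y * wω + W L (Pr p L ρ ⟨e, v, b⟩ τ)ᶜ y * wω := by ring
      _ ≤ W L (Pr p L ρ ⟨e, v, b⟩ τ \ ⋃ i ∈ S, Pr p L ρ (γ i) τ) y + (16 + 16 * C1) * L ^ (-(4 * c)) := by
          refine add_le_add ?_ h2
          have := W_nonneg (L := L) (Pr p L ρ ⟨e, v, b⟩ τ \ ⋃ i ∈ S, Pr p L ρ (γ i) τ) y
          nlinarith
  -- integrate
  have hcont : Continuous fun y : E n => ((1 + |inner ℝ e y - b| / (L ^ c * L) + ‖y‖ / L ^ 2) ^ 4)⁻¹ := by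
    refine Continuous.inv₀ ?_ fun y => by positivity
    fun_prop
  have hint : ∀ τ, Integrable fun y : E n => ‖(𝓕⁻ (Hr L S D G τ) : E n → ℂ) y‖ ^ 2 *
      ((1 + |inner ℝ e y - b| / (L ^ c * L) + ‖y‖ / L ^ 2) ^ 4)⁻¹ := by
    intro τ
    refine ((Hr_bd hL hR hG τ).int_sq).mul_bdd (c := 1) hcont.aestronglyMeasurable ?_
    refine Filter.Eventually.of_forall fun y => ?_
    rw [Real.norm_of_nonneg (by positivity)]
    apply inv_le_one_of_one_le₀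
    apply one_le_pow₀
    have : 0 ≤ |inner ℝ e y - b| / (L ^ c * L) := by positivity
    have : 0 ≤ ‖y‖ / L ^ 2 := by positivity
    linarith
  calc ∑ τ ∈ T', ∫ y : E n, ‖(𝓕⁻ (Hr L S D G τ) : E n → ℂ) y‖ ^ 2 *
        ((1 + |inner ℝ e y - b| / (L ^ c * L) + ‖y‖ / L ^ 2) ^ 4)⁻¹
      ≤ ∑ τ ∈ T', ∫ y : E n, (W L (Pr p L ρ ⟨e, v, b⟩ τ \ ⋃ i ∈ S, Pr p L ρ (γ i) τ) y * ‖(𝓕⁻ (Gc L G τ) : E n → ℂ) y‖ ^ 2 +
          (16 + 16 * C1) * L ^ (-(4 * c)) * ‖(𝓕⁻ (Gc L G τ) : E n → ℂ) y‖ ^ 2) := by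
        refine Finset.sum_le_sum fun τ hτ => integral_mono (hint τ)
          ((int_W hL0 hG _ τ).add ((Gc_bd hG τ).int_sq.const_mul _)) fun y => ?_
        simp only
        have h1 := norm_sq_inv_Hr hL hR hG τ y
        have h2 := hpt τ hτ y
        have h3 : 0 ≤ ((1 + |inner ℝ e y - b| / (L ^ c * L) + ‖y‖ / L ^ 2) ^ 4)⁻¹ := by positivity
        calc _ ≤ (W L (Dr S D τ) y * ‖(𝓕⁻ (Gc L G τ) : E n → ℂ) y‖ ^ 2) *
              ((1 + |inner ℝ e y - b| / (L ^ c * L) + ‖y‖ / L ^ 2) ^ 4)⁻¹ := mul_le_mul_of_nonneg_right h1 h3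
          _ = (W L (Dr S D τ) y * ((1 + |inner ℝ e y - b| / (L ^ c * L) + ‖y‖ / L ^ 2) ^ 4)⁻¹) *
              ‖(𝓕⁻ (Gc L G τ) : E n → ℂ) y‖ ^ 2 := by ring
          _ ≤ (W L (Pr p L ρ ⟨e, v, b⟩ τ \ ⋃ i ∈ S, Pr p L ρ (γ i) τ) y + (16 + 16 * C1) * L ^ (-(4 * c))) *
              ‖(𝓕⁻ (Gc L G τ) : E n → ℂ) y‖ ^ 2 := mul_le_mul_of_nonneg_right h2 (by positivity)
          _ = _ := by ring
    _ = ∑ τ ∈ T', ((∫ y : E n, W L (Pr p L ρ ⟨e, v, b⟩ τ \ ⋃ i ∈ S, Pr p L ρ (γ i) τ) y * ‖(𝓕⁻ (Gc L G τ) : E n → ℂ) y‖ ^ 2) +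
          (16 + 16 * C1) * L ^ (-(4 * c)) * ∫ y : E n, ‖(𝓕⁻ (Gc L G τ) : E n → ℂ) y‖ ^ 2) := by
        refine Finset.sum_congr rfl fun τ _ => ?_
        rw [integral_add (int_W hL0 hG _ τ) ((Gc_bd hG τ).int_sq.const_mul _), integral_const_mul]
    _ ≤ ∑ τ ∈ TT n L, ((∫ y : E n, W L (Pr p L ρ ⟨e, v, b⟩ τ \ ⋃ i ∈ S, Pr p L ρ (γ i) τ) y * ‖(𝓕⁻ (Gc L G τ) : E n → ℂ) y‖ ^ 2) +
          (16 + 16 * C1) * L ^ (-(4 * c)) * ∫ y : E n, ‖(𝓕⁻ (Gc L G τ) : E n → ℂ) y‖ ^ 2) := by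
        refine Finset.sum_le_sum_of_subset_of_nonneg (Finset.filter_subset _ _) fun τ _ _ => ?_
        refine add_nonneg (integral_nonneg fun y => mul_nonneg (W_nonneg _ _) (by positivity)) ?_
        exact mul_nonneg (by positivity) (integral_nonneg fun y => by positivity)
    _ = ms L G (fun τ => Pr p L ρ ⟨e, v, b⟩ τ \ ⋃ i ∈ S, Pr p L ρ (γ i) τ) + (16 + 16 * C1) * L ^ (-(4 * c)) * ∫ η, ‖G η‖ ^ 2 := by
        rw [Finset.sum_add_distrib, ← Finset.mul_sum, sum_mass hL0 hG]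
        rfl
    _ ≤ lam + (16 + 16 * C1) * L ^ (-(4 * c)) * ∫ η, ‖G η‖ ^ 2 := by linarith

end Vale.Agent.P076N.A
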